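import Vale.Agent.P022K.Dk.Ada
import Vale.Agent.P022K.Glue.Alg
import Vale.Agent.P022K.GW.Defs

/-!
P022K/Dk: the group theoretic hypothesis `GW.Adq` of the Galois cohomology block.
-/

set_option linter.all false

namespace Vale.Agent.P022K.Dk

open MulAction Matrix OnePoint Matrix.GeneralLinearGroup
open Vale.Agent.P022K.GW (Hig Tr1 Fx tw Ex Fl TI Pc Adq sl ad0 Rg ad0_coe)
open scoped Classical Pointwise

variable {G k : Type} [Group G] [Field k]

section gen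

variable {V : Type} [AddCommGroup V] [Module k V]

theorem hig_of (U : Subgroup G) (σ : Representation k G V) (h : ∀ u ∈ U, σ u = 1)
    (hi : (U.index : k) ≠ 0) : Hig U σ := by
  haveI : U.FiniteIndex := ⟨fun e => hi (by rw [e, Nat.cast_zero])⟩
  letI := Fintype.ofFinite (G ⧸ U)
  refine ⟨h, (U.index : k)⁻¹ • 1, fun b hb => by rw [h b hb, one_mul, mul_one], this, ?_⟩
  rw [Finset.sum_congr rfl (g := fun _ => (U.index : k)⁻¹ • (1 : V →ₗ[k] V)) fun x _ => by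
    rw [mul_smul_comm, mul_one, smul_mul_assoc, ← map_mul, mul_inv_cancel, map_one],
    Finset.sum_const, Finset.card_univ, ← Nat.card_eq_fintype_card, ← Nat.cast_smul_eq_nsmul k,
    smul_smul]
  exact (congrArg (· • (1 : V →ₗ[k] V)) (mul_inv_cancel₀ hi)).trans (one_smul _ _)

theorem fx_bot (σ : Representation k G V) (h : ∀ v, (∀ g, σ g v = v) → v = 0) :
    Fx (1 : G →* Equiv.Perm Unit) σ = ⊥ :=
  eq_bot_iff.2 fun f hf => funext fun _ => h _ fun g => (hf g ()).symm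

/-- a character as a representation -/
noncomputable def ch (θ : G →* kˣ) : Representation k G k := tw θ 1

theorem ch_ap (θ : G →* kˣ) (g : G) (x : k) : ch θ g x = θ g * x := rfl

theorem pc_ch (ω θ : G →* kˣ) (U H Z : Subgroup G) (hH : ∀ h ∈ H, θ h = 1)
    (hi : (H.index : k) ≠ 0) (hne : ω ≠ θ) (hZ : ∀ z ∈ Z, θ z = 1)
    (h1 : ∀ y : G → k, (∀ g ∈ H, ∀ h ∈ H, y (g * h) = y g + y h) → (∀ u ∈ U, y u = 0) →
      (∀ g, ∀ h ∈ H, y (g * h * g⁻¹) = (θ g : k)⁻¹ * ω g * y h) → ∀ h ∈ H, y h = 0) :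
    Pc ω U H Z k (ch θ) := by
  have e : ∀ g (l : Module.Dual k k), tw ω (ch θ).dual g l 1 = (θ g : k)⁻¹ * ω g * l 1 := fun g l => by
    change (ω g : k) * l ((θ g⁻¹ : k) * 1) = _
    rw [← smul_eq_mul (θ g⁻¹ : k), _root_.map_smul, map_inv, Units.val_inv_eq_inv_val, smul_eq_mul]
    ring
  obtain ⟨g, hg⟩ := DFunLike.ne_iff.1 hne
  have hg' : (θ g : k)⁻¹ * ω g ≠ 1 := fun h =>
    hg (Units.ext ((inv_mul_eq_one₀ (θ g).ne_zero).1 h).symm)
  refine ⟨inferInstance, hig_of _ _ (fun h hh => LinearMap.ext fun x => by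
    rw [ch_ap, hH h hh]; simp) hi, fx_bot _ fun l hl => LinearMap.ext_ring ?_,
    fx_bot _ fun x hx => ?_, fun y a b c h hh => LinearMap.ext_ring ?_,
    fun z hz => LinearMap.ext fun x => by rw [ch_ap, hZ z hz]; simp⟩
  · have := e g l
    rw [hl] at this
    exact by_contra fun h0 => hg' ((mul_eq_right₀ h0).1 this.symm)
  · have : ((ω g)⁻¹ : kˣ) * ((θ g : k) * x) = x := hx g
    rw [← mul_assoc, Units.val_inv_eq_inv_val] at this
    exact by_contra fun h0 => hg (Units.ext ((inv_mul_eq_one₀ (ω g).ne_zero).1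
      ((mul_eq_right₀ h0).1 this)))
  · exact h1 (fun g => y g 1) (fun g hg h hh => by rw [a g hg h hh]; rfl)
      (fun u hu => by rw [b u hu]; rfl) (fun g h hh => by rw [c g h hh, e]) h hh

theorem ex_cj {N M : Type} [AddCommGroup N] [Module k N] [AddCommGroup M] [Module k M]
    {ν : Representation k G N} {σ σ' : Representation k G V} {μ : Representation k G M}
    {i : N →ₗ[k] V} {q : V →ₗ[k] M} (h : Ex ν σ' μ i q) (E E' : V →ₗ[k] V) (h1 : ∀ v, E (E' v) = v)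
    (h2 : ∀ v, E' (E v) = v) (h3 : ∀ g v, E (σ' g v) = σ g (E v)) :
    Ex ν σ μ (E ∘ₗ i) (q ∘ₗ E') := by
  refine ⟨(Function.LeftInverse.injective h2).comp h.inj,
    h.sur.comp (Function.RightInverse.surjective h2), fun v => (h.ex _).trans
      ⟨fun ⟨x, e⟩ => ⟨x, (congrArg E e).trans (h1 v)⟩,
        fun ⟨x, e⟩ => ⟨x, (h2 _).symm.trans (congrArg E' e)⟩⟩,
    fun g x => (congrArg E (h.ei g x)).trans (h3 _ _), fun g v => ?_⟩
  change q (E' (σ g v)) = μ g (q (E' v))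
  rw [← h.eq, ← h2 (σ' g _), h3, h1]

end gen

theorem sl_tr (m : sl k) : m.1 1 1 = -m.1 0 0 := by
  have := m.2
  rw [LinearMap.mem_ker, traceLinearMap_apply, trace_fin_two] at this
  linear_combination this

theorem sl_ext {m n : sl k} (h0 : m.1 0 0 = n.1 0 0) (h1 : m.1 0 1 = n.1 0 1)
    (h2 : m.1 1 0 = n.1 1 0) : m = n := by
  ext i j
  fin_cases i <;> fin_cases j
  exacts [h0, h1, h2, (sl_tr m).trans ((congrArg _ h0).trans (sl_tr n).symm)]

/-- a matrix of trace zero -/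
def sl3 (x y z : k) : sl k := ⟨!![x, y; z, -x], by
  rw [LinearMap.mem_ker, traceLinearMap_apply, trace_fin_two_of, add_neg_cancel]⟩

section tri

variable (τ : G →* G2 k) (hτ : ∀ g, τ g 1 0 = 0)

/-- the root character -/
noncomputable def al : G →* kˣ := alf.comp (τ.codRestrict (Bor k) hτ)

theorem al_val (g : G) : (al τ hτ g : k) = τ g 0 0 / τ g 1 1 := rfl

/-- the quotient by the root space -/
noncomputable def qr : Representation k G (k × k) where
  toFun g :=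
    { toFun := fun v => (v.1 + τ g 0 1 / τ g 0 0 * v.2, τ g 1 1 / τ g 0 0 * v.2)
      map_add' := fun a b => by ext <;> simp <;> ring
      map_smul' := fun a b => by ext <;> simp <;> ring }
  map_one' := by ext <;> simp
  map_mul' g h := by
    have := (tri_ne (hτ g)).1
    have := (tri_ne (hτ h)).1
    ext <;> simp [-Units.val_mul, mul_ap, hτ] <;> field_simp

theorem fl_tri (Q : ∀ (N : Type) [AddCommGroup N] [Module k N], Representation k G N → Prop)
    (h1 : Q k (ch (al τ hτ))) (h2 : Q k (ch 1)) (h3 : Q k (ch (al τ hτ)⁻¹))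
    (σ : Representation k G (sl k)) (E E' : sl k →ₗ[k] sl k) (e1 : ∀ v, E (E' v) = v)
    (e2 : ∀ v, E' (E v) = v) (e3 : ∀ g v, E (ad0 τ g v) = σ g (E v)) : Fl Q (sl k) σ := by
  let i : k →ₗ[k] sl k :=
    { toFun := fun t => sl3 0 t 0
      map_add' := fun a b => sl_ext (by simp [sl3]) (by simp [sl3]) (by simp [sl3])
      map_smul' := fun a b => sl_ext (by simp [sl3]) (by simp [sl3]) (by simp [sl3]) }
  let q : sl k →ₗ[k] k × k :=
    { toFun := fun m => (m.1 0 0, m.1 1 0)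
      map_add' := fun a b => rfl
      map_smul' := fun a b => rfl }
  have ent : ∀ g (m : sl k) i j, (ad0 τ g m).1 i j = (τ g i 0 * m.1 0 0 + τ g i 1 * m.1 1 0) *
      (τ g)⁻¹ 0 j + (τ g i 0 * m.1 0 1 + τ g i 1 * m.1 1 1) * (τ g)⁻¹ 1 j := fun g m i j => by
    rw [ad0_coe, map_inv]
    simp only [Matrix.mul_apply, Fin.sum_univ_two]
  have X1 : Ex (ch (al τ hτ)) (ad0 τ) (qr τ hτ) i q := by
    refine ⟨fun a b e => congrArg (fun m : sl k => m.1 0 1) e,
      fun v => ⟨sl3 v.1 0 v.2, rfl⟩, fun v => ⟨fun e => ⟨v.1 0 1, sl_ext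
        (congrArg Prod.fst e).symm rfl (congrArg Prod.snd e).symm⟩, ?_⟩, fun g x => ?_,
      fun g v => ?_⟩
    · rintro ⟨x, rfl⟩
      rfl
    · obtain ⟨i1, i2, i3, i4⟩ := inv_ap (τ g)
      obtain ⟨a, b⟩ := tri_ne (hτ g)
      apply sl_ext <;> rw [ent] <;> simp only [i1, i2, i3, i4, hτ] <;>
        simp [i, sl3, ch_ap, al_val]
      field_simp
    · obtain ⟨i1, i2, i3, i4⟩ := inv_ap (τ g)
      obtain ⟨a, b⟩ := tri_ne (hτ g)
      refine Prod.ext ?_ ?_
      · change (ad0 τ g v).1 0 0 = v.1 0 0 + τ g 0 1 / τ g 0 0 * v.1 1 0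
        rw [ent, i1, i3, hτ]
        simp only [mul_zero, sub_zero, neg_zero, zero_div, add_zero]
        field_simp
      · change (ad0 τ g v).1 1 0 = τ g 1 1 / τ g 0 0 * v.1 1 0
        rw [ent, i1, i3, hτ]
        simp only [mul_zero, sub_zero, neg_zero, zero_div, add_zero, zero_mul, zero_add]
        field_simp
  have X2 : Ex (ch 1) (qr τ hτ) (ch (al τ hτ)⁻¹) (LinearMap.inl k k k) (LinearMap.snd k k k) := by
    refine ⟨LinearMap.inl_injective, LinearMap.snd_surjective,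
      fun v => ⟨fun e => ⟨v.1, Prod.ext rfl (Eq.symm e)⟩, ?_⟩, fun g x => ?_, fun g v => ?_⟩
    · rintro ⟨x, rfl⟩
      rfl
    · simp [ch_ap, qr]
    · rw [ch_ap, MonoidHom.inv_apply, Units.val_inv_eq_inv_val, al_val, inv_div]
      rfl
  exact .ext _ _ _ _ _ _ _ _ (ex_cj X1 E E' e1 e2 e3) (.one _ _ h1)
    (.ext _ _ _ _ _ _ _ _ X2 (.one _ _ h2) (.one _ _ h3))

end tri

/-! ### base change -/

section bc

variable {K : Type} [Field K] (φ : k →+* K)

theorem map_ap (g : G2 k) (i j : Fin 2) : (GeneralLinearGroup.map φ g : G2 K) i j = φ (g i j) := rfl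

theorem map_Zc {g : G2 k} : (GeneralLinearGroup.map φ g : G2 K) ∈ Zc K ↔ g ∈ Zc k := by
  simp only [mem_Zc, map_ap, map_eq_zero, φ.injective.eq_iff]

theorem map_reg {g : G2 k} : Reg (GeneralLinearGroup.map φ g : G2 K) ↔ Reg g := by
  rw [reg_ent, reg_ent, ← map_ne_zero_iff φ φ.injective]
  simp [map_ap, map_ofNat]

theorem map_par {g : G2 k} : (GeneralLinearGroup.map φ g : G2 K).IsParabolic ↔ g.IsParabolic := by
  have a := @reg_iff K _ (GeneralLinearGroup.map φ g)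
  have b := @reg_iff k _ g
  have c := @par_not_Zc K _ (GeneralLinearGroup.map φ g)
  have d := @par_not_Zc k _ g
  rw [map_reg, map_Zc] at a
  rw [map_Zc] at c
  tauto

theorem map_one_iff {g : G2 k} : (GeneralLinearGroup.map φ g : G2 K) = 1 ↔ g = 1 :=
  ⟨fun h => Units.ext (Matrix.ext fun i j => φ.injective (by
    rw [← map_ap, h, Units.val_one, Units.val_one, one_apply, one_apply]; split_ifs <;> simp)),
    fun h => by rw [h, map_one]⟩

/-- absolutely irreducible on the set `T` -/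
def Irr (ρ : G →* G2 k) (T : Set G) : Prop :=
  ∀ v : Fin 2 → K, v ≠ 0 → ∃ g ∈ T, ∀ a : K, (ρ g : Matrix (Fin 2) (Fin 2) k).map φ *ᵥ v ≠ a • v

/-- the extension of scalars -/
noncomputable abbrev bc (ρ : G →* G2 k) : G →* G2 K := (GeneralLinearGroup.map φ).comp ρ

variable {φ}

theorem Irr.mono {ρ : G →* G2 k} {T T' : Set G} (h : Irr φ ρ T) (hT : T ⊆ T') : Irr φ ρ T' :=
  fun v hv => (h v hv).imp fun _ h => ⟨hT h.1, h.2⟩

theorem irr_iff {ρ : G →* G2 k} {H : Subgroup G} :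
    Irr φ ρ H ↔ ¬ Red ((bc φ ρ).comp H.subtype).range := by
  rw [Red]
  push Not
  refine forall₂_congr fun v hv => ⟨fun ⟨g, hg, h⟩ => ⟨_, ⟨⟨g, hg⟩, rfl⟩, h⟩, ?_⟩
  rintro ⟨_, ⟨g, rfl⟩, h⟩
  exact ⟨g.1, g.2, h⟩

theorem Irr.not_red {ρ : G →* G2 k} {T : Set G} (h : Irr φ ρ T) : ¬ Red (bc φ ρ).range := by
  rintro ⟨v, hv, h'⟩
  obtain ⟨g, -, hg⟩ := h v hv
  obtain ⟨a, ha⟩ := h' _ ⟨g, rfl⟩
  exact hg a ha

theorem Irr.schur [IsAlgClosed K] (h2 : (2 : k) ≠ 0) {ρ : G →* G2 k} {H : Subgroup G}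
    (h : Irr φ ρ H) (n : sl k) (hn : ∀ g ∈ H, ad0 ρ g n = n) : n = 0 := by
  obtain ⟨c, hc⟩ := (Glue.burnside ((Units.coeHom _).comp ((bc φ ρ).comp H.subtype)) fun v hv => by
    obtain ⟨g, hg, h⟩ := h v hv
    exact ⟨⟨g, hg⟩, h⟩).schur (x := n.1.map φ) fun g _ => by
      have := congrArg (fun m : sl k => (m.1 * (ρ g).1).map φ) (hn g g.2)
      simp only [ad0_coe] at this
      rw [mul_assoc, ← Units.val_mul, ← map_mul, inv_mul_cancel, map_one, Units.val_one, mul_one,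
        Matrix.map_mul, Matrix.map_mul] at this
      exact this.symm
  have a : φ (n.1 0 0) = c := by simpa using congrFun (congrFun hc 0) 0
  have b : φ (n.1 1 1) = c := by simpa using congrFun (congrFun hc 1) 1
  have d := φ.injective (a.trans b.symm)
  rw [sl_tr] at d
  exact sl_ext (mul_left_cancel₀ h2 (by rw [Submodule.coe_zero, Matrix.zero_apply]; linear_combination d))
    (by simpa using congrFun (congrFun hc 0) 1) (by simpa using congrFun (congrFun hc 1) 0)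

theorem Irr.schur' [IsAlgClosed K] (h2 : (2 : k) ≠ 0) {ρ : G →* G2 k} {H : Subgroup G}
    (h : Irr φ ρ H) (l : Module.Dual k (sl k)) (hl : ∀ g ∈ H, ∀ m, l (ad0 ρ g⁻¹ m) = l m) :
    l = 0 := by
  let n := sl3 (l (sl3 1 0 0) / 2) (l (sl3 0 0 1)) (l (sl3 0 1 0))
  have e : ∀ m : sl k, l m = (n.1 * m.1).trace := fun m => by
    have : m = m.1 0 0 • sl3 1 0 0 + m.1 0 1 • sl3 0 1 0 + m.1 1 0 • sl3 0 0 1 :=
      sl_ext (by simp [sl3]) (by simp [sl3]) (by simp [sl3])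
    conv_lhs => rw [this]
    simp only [map_add, _root_.map_smul, smul_eq_mul, trace_fin_two, Matrix.mul_apply, Fin.sum_univ_two,
      sl_tr m]
    simp [n, sl3]
    field_simp
    ring
  have z : n = 0 := h.schur h2 n fun g hg => by
    have t : ∀ m : sl k, ((ad0 ρ g n).1 * m.1).trace = (n.1 * m.1).trace := fun m => by
      rw [← e, ← hl g hg, e, ad0_coe, ad0_coe, inv_inv, mul_assoc, mul_assoc, trace_mul_comm]
      simp only [mul_assoc]
    have a := t (sl3 1 0 0)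
    have b := t (sl3 0 0 1)
    have c := t (sl3 0 1 0)
    simp only [trace_fin_two, Matrix.mul_apply, Fin.sum_univ_two, sl_tr (ad0 ρ g n), sl_tr n] at a b c
    simp [sl3] at a b c
    exact sl_ext (mul_left_cancel₀ h2 (by linear_combination a)) b c
  ext m
  rw [e, z]
  simp

end bc

theorem pow_char {p : ℕ} [Fact p.Prime] [CharP k p] {x : k} (h : x ^ p = 1) : x = 1 := by
  rw [← sub_eq_zero, ← one_pow p, ← sub_pow_char] at h
  exact sub_eq_zero.1 (pow_eq_zero_iff (Fact.out : p.Prime).ne_zero |>.1 h)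

theorem pow_char' {p : ℕ} [Fact p.Prime] [CharP k p] {x : kˣ} (h : x ^ p = 1) : x = 1 :=
  Units.ext (pow_char (p := p) (by rw [← Units.val_pow_eq_pow_val, h, Units.val_one]))

theorem idx_ne (p : ℕ) [Fact p.Prime] [CharP k p] {M : Type} [Group M] [Finite M] (f : G →* M)
    (h : ∀ g, f g ^ p = 1 → f g = 1) : (f.ker.index : k) ≠ 0 := by
  rw [Ne, CharP.cast_eq_zero_iff k p, Subgroup.index_ker]
  intro hd
  obtain ⟨⟨_, g, rfl⟩, hx⟩ := exists_prime_orderOf_dvd_card' p hd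
  have e := pow_orderOf_eq_one (⟨f g, g, rfl⟩ : f.range)
  rw [hx] at e
  rw [show (⟨f g, g, rfl⟩ : f.range) = 1 from Subtype.ext (h g (congrArg Subtype.val e)),
    orderOf_one] at hx
  exact (Fact.out : p.Prime).one_lt.ne hx

theorem up_pow (t : k) (n : ℕ) : up t ^ n = up (n * t) := by
  induction n with
  | zero => simp [up_zero]
  | succ n ih =>
    rw [pow_succ, ih]
    apply ext4 <;> simp [mul_ap]
    ring

/-- the lower right entry -/
noncomputable def d1 : Bor k →* kˣ where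
  toFun g := Units.mk0 (g.1 1 1) (tri_ne g.2).2
  map_one' := by ext; simp
  map_mul' a b := by
    ext
    have ha : a.1 1 0 = 0 := a.2
    simp only [Units.val_mk0, Units.val_mul, Subgroup.coe_mul]
    rw [← Units.val_mul, mul_ap, ha, zero_mul, zero_add]

theorem Exc.of_cj {G : Subgroup (G2 k)} {P : G2 k} (h : Exc (cj P G)) : Exc G := by
  obtain ⟨h, F, Q, h'⟩ := h
  exact ⟨h, F, P * Q, cj_cj P Q G ▸ h'⟩

variable {K : Type} [Field K] [IsAlgClosed K] [Finite k] {φ : k →+* K}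

instance (ρ : G →* G2 k) : Finite (bc φ ρ).range :=
  (Set.finite_range (GeneralLinearGroup.map (n := Fin 2) φ)).subset fun _ ⟨g, h⟩ => ⟨ρ g, h⟩

instance (ρ : G →* G2 k) (H : Subgroup G) : Finite ((bc φ ρ).comp H.subtype).range :=
  inferInstanceAs (Finite (bc φ (ρ.comp H.subtype)).range)

theorem adq_bor (h2 : (2 : k) ≠ 0) (ρ : G →* G2 k) (ω : G →* kˣ) (hω : ω ≠ 1)
    (hi : ¬ Red (bc φ ρ).range) (hE : (∀ g, ρ g ∈ Zc k → ω g = 1) → ¬ Exc (bc φ ρ).range)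
    {g₀ : G} (hp : (ρ g₀).IsParabolic) (h0 : ρ g₀ 1 0 = 0)
    (σ : Representation k G (sl k)) (E E' : sl k →ₗ[k] sl k) (e1 : ∀ v, E (E' v) = v)
    (e2 : ∀ v, E' (E v) = v) (e3 : ∀ g v, E (ad0 ρ g v) = σ g (E v)) :
    ∃ H' H B : Subgroup G, TI k (ρ.ker ⊓ ω.ker) H' B ∧ ρ.ker ⊓ ω.ker ≤ H ∧ H ≤ B ∧
      (H.subgroupOf B).Normal ∧ H ≤ ω.ker ∧
      Fl (Pc (ω.comp B.subtype) ((ρ.ker ⊓ ω.ker).subgroupOf B) (H.subgroupOf B)
        (((Zc k).comap ρ).subgroupOf B)) (sl k) (σ.comp B.subtype) ∧ (Zc k).comap ρ ≤ B := by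
  obtain ⟨p, hc⟩ := CharP.exists k
  haveI := Fact.mk (CharP.char_is_prime k p)
  have h2' : (2 : K) ≠ 0 := by rw [← map_ofNat φ]; exact (map_ne_zero φ).2 h2
  let B := (Bor k).comap ρ
  let τ := ρ.comp B.subtype
  have hτ : ∀ g, τ g 1 0 = 0 := fun g => g.2
  let f : B →* kˣ × kˣ × kˣ :=
    (al τ hτ).prod ((d1.comp (τ.codRestrict (Bor k) hτ)).prod (ω.comp B.subtype))
  let H := f.ker.map B.subtype
  have eH : H.subgroupOf B = f.ker := Subgroup.comap_map_eq_self_of_injective B.subtype_injective _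
  have mf : ∀ g : B, g ∈ f.ker ↔ ρ g 0 0 = 1 ∧ ρ g 1 1 = 1 ∧ ω g = 1 := fun g => by
    refine ⟨fun h => ?_, fun h => Prod.ext (Units.ext ?_) (Prod.ext (Units.ext h.2.1) h.2.2)⟩
    · have a : ρ g 0 0 / ρ g 1 1 = 1 := congrArg (fun x : kˣ × kˣ × kˣ => (x.1 : k)) h
      have b : ρ g 1 1 = 1 := congrArg (fun x : kˣ × kˣ × kˣ => (x.2.1 : k)) h
      exact ⟨by rwa [b, div_one] at a, b, congrArg (fun x : kˣ × kˣ × kˣ => x.2.2) h⟩
    · change ρ g 0 0 / ρ g 1 1 = 1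
      rw [h.1, h.2.1, div_one]
  have hHB : H ≤ B := Subgroup.map_subtype_le _
  have mH : ∀ g ∈ H, ρ g 1 0 = 0 ∧ ρ g 0 0 = 1 ∧ ρ g 1 1 = 1 ∧ ω g = 1 := by
    rintro _ ⟨g, hg, rfl⟩
    exact ⟨g.2, (mf g).1 hg⟩
  have hU : ρ.ker ⊓ ω.ker ≤ H := fun g hg => by
    have e : ρ g = 1 := hg.1
    exact ⟨⟨g, show ρ g 1 0 = 0 by simp [e]⟩, (mf _).2 ⟨by simp [e], by simp [e], hg.2⟩, rfl⟩
  have i1 : (f.ker.index : k) ≠ 0 := idx_ne p f fun g h =>
    Prod.ext (pow_char' (congrArg Prod.fst h)) (Prod.ext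
      (pow_char' (congrArg (fun x => x.2.1) h)) (pow_char' (congrArg (fun x => x.2.2) h)))
  have i2 : (B.index : k) ≠ 0 := by
    have a : B.index = (orbit ρ.range (∞ : OnePoint k)).ncard := by
      rw [Subgroup.index_comap, Bor_eq, ← index_stabilizer]
      rfl
    obtain ⟨m, hm⟩ := Fin0_dvd ρ.range
    rw [a, Fin0_card, hm, Nat.cast_add, Nat.cast_mul, Gam_char, zero_mul, add_zero, Nat.cast_one]
    · exact one_ne_zero
    refine Finite.one_lt_card_iff_nontrivial.2 ⟨⟨⟨_, _, ⟨g₀, rfl⟩, mem_Uni'.2 ⟨h0, .inr hp⟩, rfl⟩, 0,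
      fun e => ?_⟩⟩
    exact div_ne_zero ((par_tri h0).1 hp).2 (tri_ne h0).2 (congrArg Subtype.val e)
  have A := fun (ω : G →* kˣ) (hω : ω ≠ 1)
      (hE : (∀ g, ρ g ∈ Zc k → ω g = 1) → ¬ Exc (bc φ ρ).range) =>
    adqa h2' (bc φ ρ) hi ((Units.map φ.toMonoidHom).comp ω)
      (fun e => hω (MonoidHom.ext fun g => Units.ext (φ.injective
        ((congrArg Units.val (DFunLike.congr_fun e g)).trans (map_one φ).symm))))
      fun h => hE fun g hg => Units.ext (φ.injective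
        ((congrArg Units.val (h g ((map_Zc φ).2 hg))).trans (map_one φ).symm))
  have ne : ∀ (ω : G →* kˣ) (hω : ω ≠ 1)
      (hE : (∀ g, ρ g ∈ Zc k → ω g = 1) → ¬ Exc (bc φ ρ).range) (ε : ℤ), ε = 1 ∨ ε = 0 ∨ ε = -1 →
      ¬ ∀ b : B, (al τ hτ b : k) = (al τ hτ b : k) ^ ε * ω b := fun ω hω hE ε hε h => by
    refine div_ne_zero ((par_tri (g := bc φ ρ g₀) ((map_eq_zero φ).2 h0)).1 ((map_par φ).2 hp)).2
      (tri_ne (g := bc φ ρ g₀) ((map_eq_zero φ).2 h0)).2 (A ω hω hE ε hε id (fun _ _ _ _ => rfl)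
        (fun b hb γ _ => ?_) _ ⟨_, ⟨g₀, rfl⟩, mem_Uni'.2 ⟨(map_eq_zero φ).2 h0,
          .inr ((map_par φ).2 hp)⟩, rfl⟩)
    have := congrArg φ (h ⟨b, (map_eq_zero φ).1 hb⟩)
    rw [map_mul, map_zpow₀, al_val, map_div₀] at this
    exact congrArg (· * γ) this
  have pc : ∀ (θ : B →* kˣ) (ε : ℤ), ε = 1 ∨ ε = 0 ∨ ε = -1 →
      (∀ b, (θ b : k)⁻¹ = (al τ hτ b : k) ^ ε) → ω.comp B.subtype ≠ θ →
      Pc (ω.comp B.subtype) ((ρ.ker ⊓ ω.ker).subgroupOf B) (H.subgroupOf B)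
        (((Zc k).comap ρ).subgroupOf B) k (ch θ) := fun θ ε hε hθ hne => by
    have one : ∀ b : B, ρ b 0 0 = ρ b 1 1 → θ b = 1 := fun b e => by
      have := hθ b
      rw [show (al τ hτ b : k) = 1 from (div_eq_one_iff_eq (tri_ne (hτ b)).2).2 e, _root_.one_zpow,
        inv_eq_one] at this
      exact Units.ext this
    rw [eH]
    refine pc_ch _ _ _ _ _ (fun h hh => one h (((mf h).1 hh).1.trans ((mf h).1 hh).2.1.symm)) i1 hne
      (fun z hz => one z (mem_Zc.1 hz).2.2) fun y ya yb yc => ?_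
    let F : K → K := fun γ =>
      if h : ∃ u ∈ f.ker, φ (ρ u 0 1) = γ then φ (y h.choose) else 0
    have F1 : ∀ u ∈ f.ker, F (φ (ρ u 0 1)) = φ (y u) := fun u hu => by
      have h : ∃ u' ∈ f.ker, φ (ρ u' 0 1) = φ (ρ u 0 1) := ⟨u, hu, rfl⟩
      obtain ⟨c1, c2⟩ := h.choose_spec
      have e : ρ h.choose = ρ u := ext4 (((mf _).1 c1).1.trans ((mf _).1 hu).1.symm)
        (φ.injective c2) ((hτ _).trans (hτ u).symm) (((mf _).1 c1).2.1.trans ((mf _).1 hu).2.1.symm)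
      have m := f.ker.mul_mem (f.ker.inv_mem c1) hu
      have := ya _ c1 _ m
      rw [mul_inv_cancel_left, yb (h.choose⁻¹ * u) ⟨by
        change ρ ((h.choose : G)⁻¹ * u) = 1
        rw [map_mul, map_inv, e, inv_mul_cancel], ((mf _).1 m).2.2⟩, add_zero] at this
      rw [this]
      exact dif_pos h
    have F2 : ∀ γ ∈ Gam (bc φ ρ).range, ∃ u ∈ f.ker, φ (ρ u 0 1) = γ := fun γ hγ => by
      obtain ⟨g, e⟩ := up_mem hγ
      have c : ((Nat.card kˣ : ℕ) : k) = -1 := by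
        letI := Fintype.ofFinite k
        rw [Nat.card_units, Nat.cast_pred Nat.card_pos, Nat.card_eq_fintype_card,
          FiniteField.cast_card_eq_zero, zero_sub]
      have e' : bc φ ρ (g ^ Nat.card kˣ ^ 2) = up γ := by
        rw [map_pow, e, up_pow, Nat.cast_pow, ← map_natCast φ, c]
        simp
      have ent : ∀ i j, φ (ρ (g ^ Nat.card kˣ ^ 2) i j) = up γ i j := fun i j =>
        congrArg (fun x : G2 K => x i j) e'
      exact ⟨⟨_, (map_eq_zero φ).1 (ent 1 0)⟩, (mf _).2 ⟨(map_eq_one_iff φ φ.injective).1 (ent 0 0),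
        (map_eq_one_iff φ φ.injective).1 (ent 1 1), by
          change ω (g ^ _) = 1
          rw [map_pow, pow_two, pow_mul, pow_card_eq_one']⟩, ent 0 1⟩
    intro h hh
    refine (map_eq_zero φ).1 ((F1 h hh).symm.trans (A ω hω hE ε hε F (fun x hx z hz => ?_)
      (fun b hb γ hγ => ?_) _ ⟨_, ⟨h.1, rfl⟩, ⟨(map_eq_zero φ).2 (hτ h),
        congrArg φ (((mf h).1 hh).1.trans ((mf h).1 hh).2.1.symm)⟩, ?_⟩))
    · obtain ⟨u, hu, rfl⟩ := F2 x hx
      obtain ⟨v, hv, rfl⟩ := F2 z hz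
      rw [F1 u hu, F1 v hv, ← map_add, ← map_add, ← ya u hu v hv, ← F1 _ (f.ker.mul_mem hu hv),
        Subgroup.coe_mul, map_mul, mul_ap, ((mf u).1 hu).1, ((mf v).1 hv).2.1, one_mul, mul_one,
        add_comm]
    · obtain ⟨u, hu, rfl⟩ := F2 γ hγ
      have hb' : ρ b 1 0 = 0 := (map_eq_zero φ).1 hb
      have := F1 _ (f.normal_ker.conj_mem u hu ⟨b, hb'⟩)
      rw [yc _ u hu, hθ, map_mul φ, map_mul φ, map_zpow₀, al_val, map_div₀] at this
      rw [F1 u hu]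
      refine (congrArg F ?_).trans this
      obtain ⟨j1, j2, j3, j4⟩ := inv_ap (ρ b)
      obtain ⟨n1, n2⟩ := tri_ne hb'
      change φ (ρ b 0 0) / φ (ρ b 1 1) * _ = φ (ρ (b * u * b⁻¹) 0 1)
      rw [← map_div₀, ← map_mul, map_mul ρ, map_mul ρ, map_inv, mul_ap, mul_ap, mul_ap, j2, j4, hb',
        ((mf u).1 hu).1, ((mf u).1 hu).2.1, show ρ u 1 0 = 0 from hτ u]
      congr 1
      simp only [mul_zero, sub_zero, add_zero]
      field_simp
      ring
    · change φ (ρ h 0 1) / φ (ρ h 1 1) = _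
      rw [((mf h).1 hh).2.1, map_one, div_one]
  refine ⟨H, H, B, ⟨hU, hHB, ?_, fun g hg h hh hb => ⟨?_, (mH h hh).2.2.2⟩⟩, hU, hHB,
    eH ▸ inferInstance, fun h hh => (mH h hh).2.2.2, fl_tri τ hτ _
      (pc _ (-1) (by simp) (fun b => by simp) fun e => ne ω hω hE 0 (by simp) fun b => ?_)
      (pc _ 0 (by simp) (fun b => by simp) fun e => ne ω hω hE 1 (by simp) fun b => ?_)
      (pc _ 1 (by simp) (fun b => by simp) fun e => ne ω⁻¹
        (fun e => hω (MonoidHom.ext fun g => inv_eq_one.1 (DFunLike.congr_fun e g)))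
        (fun h => hE fun g hg => inv_eq_one.1 (h g hg)) 0 (by simp) fun b => ?_)
      _ E E' e1 e2 fun g v => e3 g v, fun g hg => (mem_Zc.1 hg).2.1⟩
  · rw [← Subgroup.relIndex_mul_index hHB, Subgroup.relIndex, eH, Nat.cast_mul]
    exact mul_ne_zero i1 i2
  · obtain ⟨a, b, c, -⟩ := mH h hh
    by_contra hn
    have hp' : (ρ h).IsParabolic := (par_tri a).2 ⟨b.trans c.symm, fun e => hn
      (ext4 (by simpa using b) (by simpa using e) (by simpa using a) (by simpa using c))⟩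
    have t : ρ (g⁻¹ * h * g) 1 0 = 0 := hb
    rw [map_mul, map_mul, map_inv] at t
    have m : ρ g • (∞ : OnePoint k) ∈ fixedBy (OnePoint k) (ρ h) := tri_cj.2 t
    rw [fix_par a hp'] at m
    exact hg (smul_infty_eq_self_iff.1 m)
  · rw [← e, zpow_zero, one_mul]
    rfl
  · rw [zpow_one, show ω b = 1 from DFunLike.congr_fun e b, Units.val_one, mul_one]
  · rw [zpow_zero, one_mul, MonoidHom.inv_apply, show ω b = (al τ hτ b)⁻¹ from DFunLike.congr_fun e b,
      inv_inv]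

/-- **the hypothesis of the Galois cohomology block** -/
theorem adq (h2 : (2 : k) ≠ 0) (ρ : G →* G2 k) (ω : G →* kˣ) (hω : ω ≠ 1) (hi : Irr φ ρ ω.ker)
    (hE : (∀ g, ρ g ∈ Zc k → ω g = 1) → ¬ Exc (bc φ ρ).range) : Adq ρ ω := by
  have h2' : (2 : K) ≠ 0 := by rw [← map_ofNat φ]; exact (map_ne_zero φ).2 h2
  refine ⟨?_, fun W _ _ _ σ hσ => ?_⟩
  swap
  · obtain ⟨s, w, a, b, c⟩ := adqb ((bc φ ρ).comp ω.ker.subtype) h2' (irr_iff.1 hi) (fun g => (σ g.1).toAddMonoidHom)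
      (fun w => by simp) (fun g h w => by simp) fun g hg w => by
        simp [hσ g.1 ((map_Zc φ).1 hg) g.2]
    exact ⟨s.1, w, s.2, (map_reg φ).1 c, a, b⟩
  by_cases hp : ∀ g, ¬ (ρ g).IsParabolic
  · obtain ⟨p, hc⟩ := CharP.exists k
    haveI := Fact.mk (CharP.char_is_prime k p)
    haveI : CharP K p := charP_of_injective_ringHom φ.injective p
    have i1 : ((ρ.ker ⊓ ω.ker).index : k) ≠ 0 := by
      rw [← MonoidHom.ker_prod]
      refine idx_ne p _ fun g h => Prod.ext ?_ (pow_char' (congrArg Prod.snd h))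
      have e : ρ g ^ p = 1 := congrArg Prod.fst h
      have z : ρ g ∈ Zc k := by_contra fun hz => hp g ((map_par φ).1 (par_of_pow p
        (mt (map_Zc φ).1 hz) 1 (by rw [pow_one, ← map_pow, e, map_one]; exact one_mem _)))
      obtain ⟨a, b, c⟩ := mem_Zc.1 z
      have d : ρ g 1 1 = 1 := pow_char (p := p) (by rw [← (tri_pow b p).2.2, e]; simp)
      exact ext4 (by simpa using c.trans d) (by simpa using a) (by simpa using b) (by simpa using d)
    refine ⟨⊤, ρ.ker ⊓ ω.ker, ⊤, ⟨le_top, le_rfl, by simp, fun g hg => (hg trivial).elim⟩, le_rfl,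
      le_top, inferInstance, inf_le_right, .one _ _ ⟨inferInstance, hig_of _ _ (fun u hu => ?_) ?_,
        fx_bot _ fun l hl => hi.schur' h2 l fun g hg m => ?_,
        fx_bot _ fun n hn => hi.schur h2 n fun g hg => ?_, fun y _ b _ => b, fun z hz => ?_⟩, le_top⟩
    · ext1 m
      refine Subtype.ext ((ad0_coe ρ u.1 m).trans ?_)
      rw [map_inv, show ρ u.1 = 1 from hu.1]
      simp
    · rwa [← Subgroup.relIndex, Subgroup.relIndex_top_right]
    · have : (ω g : k) • l (ad0 ρ g⁻¹ m) = l m := LinearMap.congr_fun (hl ⟨g, trivial⟩) m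
      rwa [show ω g = 1 from hg, Units.val_one, one_smul] at this
    · have : (((ω g)⁻¹ : kˣ) : k) • ad0 ρ g n = n := hn ⟨g, trivial⟩
      rwa [show ω g = 1 from hg, inv_one, Units.val_one, one_smul] at this
    · ext1 m
      refine Subtype.ext ((ad0_coe ρ z.1 m).trans ?_)
      obtain ⟨c, hc⟩ := mem_center_iff_val_mem_range_scalar.1 (show ρ z.1 ∈ Zc k from hz)
      rw [← hc, (scalar_commute c (fun _ => .all _ _) _).eq, hc, mul_assoc, ← Units.val_mul,
        ← map_mul, mul_inv_cancel, map_one, Units.val_one, mul_one]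
      rfl
  push Not at hp
  obtain ⟨g₀, hp⟩ := hp
  haveI : NeZero (2 : k) := ⟨h2⟩
  obtain ⟨P, hP⟩ := trans1 (ρ g₀).parabolicFixedPoint
  let ρ' : G →* G2 k := (MulAut.conj P⁻¹).toMonoidHom.comp ρ
  have e : ∀ g, ρ' g = P⁻¹ * ρ g * P := fun g => by simp [ρ']
  have e1 : ρ'.ker = ρ.ker := Subgroup.ext fun g => by
    rw [MonoidHom.mem_ker, MonoidHom.mem_ker, e, mul_assoc, inv_mul_eq_one, eq_comm, mul_eq_right]
  have e2 : ∀ g, ρ' g ∈ Zc k ↔ ρ g ∈ Zc k := fun g => Zc_cj P⁻¹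
  have e3 : (bc φ ρ').range = cj (GeneralLinearGroup.map φ P) (bc φ ρ).range :=
    Subgroup.ext fun m => ⟨fun ⟨g, h⟩ => h ▸ by
      rw [MonoidHom.comp_apply, e, map_mul, map_mul, map_inv]; exact mem_cj'.2 ⟨g, rfl⟩,
      fun ⟨g, h⟩ => ⟨g, by
        have h : GeneralLinearGroup.map φ (ρ g) = _ * m * _ := h
        rw [MonoidHom.comp_apply, e, map_mul, map_mul, map_inv, h]
        group⟩⟩
  have := adq_bor (φ := φ) h2 ρ' ω hω (e3 ▸ mt (red_cj _).1 hi.not_red)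
    (fun h => e3 ▸ mt Exc.of_cj (hE fun g hg => h g ((e2 g).2 hg))) (g₀ := g₀)
    (e g₀ ▸ (isParabolic_conj_iff' _ _).2 hp)
    (e g₀ ▸ tri_cj.1 (hP ▸ hp.smul_eq_self_iff.2 rfl)) (ad0 ρ) (ad0 (MonoidHom.id _) P)
    (ad0 (MonoidHom.id _) P⁻¹)
    (fun v => by rw [← Module.End.mul_apply, ← map_mul, mul_inv_cancel, map_one]; rfl)
    (fun v => by rw [← Module.End.mul_apply, ← map_mul, inv_mul_cancel, map_one]; rfl)
    fun g v => Subtype.ext (by
      simp only [ad0_coe, e, map_inv, MonoidHom.id_apply, Units.val_mul, _root_.mul_inv_rev, inv_inv,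
        mul_assoc, Units.mul_inv_cancel_left, Units.mul_inv, mul_one])
  rwa [e1, show (Zc k).comap ρ' = (Zc k).comap ρ from Subgroup.ext e2] at this

/-- the three usual ways to exclude the exceptional groups -/
theorem adq' (h2 : (2 : k) ≠ 0) (ρ : G →* G2 k) (ω : G →* kˣ) (hω : ω ≠ 1) (hi : Irr φ ρ ω.ker)
    (hE : ((3 : k) ≠ 0 ∧ (5 : k) ≠ 0) ∨ (∃ g, ρ g ∈ Zc k ∧ ω g ≠ 1) ∨
      ∃ g, ∀ n, 1 ≤ n → n ≤ 11 → ρ g ^ n ∉ Zc k) : Adq ρ ω := by
  refine adq h2 ρ ω hω hi fun hz hx => ?_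
  rcases hE with h | ⟨g, h⟩ | ⟨g, h⟩
  · exact hx.1.elim (fun e => h.1 (φ.injective (by rw [map_ofNat, e, map_zero])))
      fun e => h.2 (φ.injective (by rw [map_ofNat, e, map_zero]))
  · exact h.2 (hz g h.1)
  · obtain ⟨n, a, b, c⟩ := hx.ord ⟨g, rfl⟩
    exact h n a b ((map_Zc φ).1 (by rwa [map_pow]))

end Vale.Agent.P022K.Dk
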