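import Vale.Agent.P022K.Dk.Ada

/-!
P022K/Dk: solvability of the small cases, perfectness of `SL₂(F)`, and the non solvable groups in
characteristic two.
-/

set_option linter.all false

namespace Vale.Agent.P022K.Dk

open MulAction Matrix OnePoint Matrix.GeneralLinearGroup
open scoped Classical commutatorElement

variable {k : Type} [Field k]

theorem solv_of {Γ : Type*} [Group Γ] (G T : Subgroup Γ) (h1 : ∀ a ∈ G, ∀ b ∈ G, ⁅a, b⁆ ∈ T)
    (h2 : ∀ a ∈ T, ∀ b ∈ T, a * b = b * a) : Group.IsSolvable G := by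
  refine ⟨⟨2, eq_bot_iff.2 ?_⟩⟩
  have e : derivedSeries G 1 ≤ T.subgroupOf G :=
    Subgroup.commutator_le.2 fun a _ b _ => h1 a a.2 b b.2
  exact Subgroup.commutator_le.2 fun a ha b hb => commutatorElement_eq_one_iff_mul_comm.2
    (Subtype.ext (h2 _ (e ha) _ (e hb)))

theorem solv_cj {G T : Subgroup (G2 k)} {P : G2 k} (h1 : ∀ a ∈ cj P G, ∀ b ∈ cj P G, ⁅a, b⁆ ∈ T)
    (h2 : ∀ a ∈ T, ∀ b ∈ T, a * b = b * a) : Group.IsSolvable G := by
  refine solv_of G (cj P⁻¹ T) (fun a ha b hb => ?_) fun a ha b hb => ?_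
  · have := h1 _ ((mem_cj' (P := P)).2 ha) _ ((mem_cj' (P := P)).2 hb)
    rw [mem_cj]
    convert this using 1
    simp only [commutatorElement_def]
    group
  · have := h2 _ (mem_cj.1 ha) _ (mem_cj.1 hb)
    apply (MulAut.conj P⁻¹).injective
    rw [map_mul, map_mul]
    exact this

theorem Red.solv {G : Subgroup (G2 k)} (h : Red G) : Group.IsSolvable G := by
  obtain ⟨P, h⟩ := red_iff.1 h
  refine solv_cj (P := P) (T := Uni k) (fun a ha b hb => ?_) fun a ha b hb => ?_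
  · have m : ⁅a, b⁆ ∈ Bor k := h (((cj P G).mul_mem ((cj P G).mul_mem ((cj P G).mul_mem ha hb)
      ((cj P G).inv_mem ha)) ((cj P G).inv_mem hb)))
    have e : alf ⟨_, m⟩ = 1 := by
      rw [show (⟨_, m⟩ : Bor k) = ⁅(⟨a, h ha⟩ : Bor k), ⟨b, h hb⟩⁆ from rfl, map_commutatorElement,
        commutatorElement_eq_one_iff_mul_comm, mul_comm]
    exact ⟨m, (div_eq_one_iff_eq (tri_ne m).2).1 (congrArg Units.val e)⟩
  · apply ext4 <;> simp only [mul_ap, ha.1, hb.1, ha.2, hb.2] <;> ring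

/-- the diagonal matrices -/
def Dg (k : Type) [Field k] : Subgroup (G2 k) where
  carrier := {g | g 0 1 = 0 ∧ g 1 0 = 0}
  mul_mem' {a b} ha hb := ⟨by rw [mul_ap, ha.1, hb.1]; ring, by rw [mul_ap, ha.2, hb.2]; ring⟩
  one_mem' := by simp
  inv_mem' {a} ha := ⟨by rw [(inv_ap a).2.1, ha.1]; ring, by rw [(inv_ap a).2.2.1, ha.2]; ring⟩

theorem Mon.mul {G : Subgroup (G2 k)} (h : Mon G) {a b : G2 k} (ha : a ∈ G) (hb : b ∈ G) :
    (a * b) 0 0 = 0 ↔ (a 0 0 = 0 ↔ ¬ b 0 0 = 0) := by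
  have d := det_ne a
  have e := det_ne b
  rw [mul_ap]
  rcases h a ha with ⟨x, y⟩ | ⟨x, y⟩ <;> rcases h b hb with ⟨z, w⟩ | ⟨z, w⟩ <;>
    simp_all

theorem Dih.solv {G : Subgroup (G2 k)} (h : Dih G) : Group.IsSolvable G := by
  obtain ⟨P, h⟩ := h
  refine solv_cj (P := P) (T := Dg k) (fun a ha b hb => ?_) fun a ha b hb => ?_
  · have m : ⁅a, b⁆ ∈ cj P G := (cj P G).mul_mem ((cj P G).mul_mem ((cj P G).mul_mem ha hb)
      ((cj P G).inv_mem ha)) ((cj P G).inv_mem hb)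
    refine (h _ m).resolve_right fun z => ?_
    have e1 := h.mul m ((cj P G).mul_mem hb ha)
    rw [show ⁅a, b⁆ * (b * a) = a * b by rw [commutatorElement_def]; group, h.mul ha hb,
      h.mul hb ha] at e1
    have := z.1
    tauto
  · apply ext4 <;> simp only [mul_ap, ha.1, hb.1, ha.2, hb.2] <;> ring

/-- `SL₂(F)` is perfect when `F` has an element with `a ≠ 0`, `a² ≠ 1` -/
theorem Std.perf {F : Subfield k} {G K : Subgroup (G2 k)} (h : Std F G) {a : k} (ha : a ∈ F)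
    (h0 : a ≠ 0) (h1 : a ^ 2 ≠ 1) (hK : ∀ x ∈ G, ∀ y ∈ G, ⁅x, y⁆ ∈ K) (m : G2 k)
    (hm : ∀ i j, m i j ∈ F) (hd : m 0 0 * m 1 1 - m 0 1 * m 1 0 = 1) : m ∈ K := by
  have s := sub_ne_zero.2 h1
  have f : ∀ t ∈ F, t / (a ^ 2 - 1) ∈ F := fun t ht =>
    div_mem ht (sub_mem (pow_mem ha 2) (one_mem _))
  refine sl2_gen F K (fun t ht => ?_) (fun t ht => ?_) m hm hd
  · convert hK _ (h.dg ha h0) _ (h.up (f t ht)) using 1
    rw [commutatorElement_def, eq_mul_inv_iff_mul_eq, eq_mul_inv_iff_mul_eq]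
    apply ext4 <;> simp [mul_ap, Dk.dg] <;> field_simp <;> ring
  · convert hK _ (h.dg (inv_mem ha) (inv_ne_zero h0)) _ (h.lo (f t ht)) using 1
    rw [commutatorElement_def, eq_mul_inv_iff_mul_eq, eq_mul_inv_iff_mul_eq]
    apply ext4 <;> simp [mul_ap, Dk.dg] <;> field_simp <;> ring

variable [IsAlgClosed k] [CharP k 2]

theorem not_small (G : Subgroup (G2 k)) [Finite G] : ¬ Small G := by
  rintro ⟨h, h'⟩
  obtain ⟨g, hg, z, e⟩ := cauchy G 2 (by omega)
  rcases h' with h' | h'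
  · exact h' g hg (par_of_pow 2 z 1 (by rwa [pow_one]))
  · exact one_ne_zero (by linear_combination h'.1 - CharTwo.two_eq_zero (R := k))

/-- **characteristic two**: a finite non solvable subgroup of `SL₂(k)` is conjugate to `SL₂(F)` -/
theorem big2 (G : Subgroup (G2 k)) [Finite G]
    (hd : ∀ g ∈ G, (g : Matrix (Fin 2) (Fin 2) k).det = 1) (hs : ¬ Group.IsSolvable G) :
    ∃ (F : Subfield k) (P : G2 k), 3 ≤ Nat.card F ∧ Std F (cj P G) ∧
      ∀ m ∈ cj P G, (∀ i j, m i j ∈ F) ∧ m 0 0 * m 1 1 - m 0 1 * m 1 0 = 1 := by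
  obtain ⟨F, P, h3, h⟩ := (((dickson G).resolve_left (mt Red.solv hs)).resolve_left
    (mt Dih.solv hs)).resolve_left (not_small G)
  refine ⟨F, P, h3, h, fun m hm => ?_⟩
  have d := hd _ (mem_cj.1 hm)
  rw [Units.val_mul, Units.val_mul, det_units_conj, det_fin_two] at d
  refine ⟨fun i j => ?_, d⟩
  obtain ⟨c, c0, hc⟩ := h.2 m hm
  haveI : Finite F := Nat.finite_of_card_ne_zero (by omega)
  have c2 : c ^ 2 ∈ F := by
    convert sub_mem (mul_mem (hc 0 0) (hc 1 1)) (mul_mem (hc 0 1) (hc 1 0)) using 1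
    linear_combination (-c ^ 2) * d
  obtain ⟨x, hx⟩ := (Finite.injective_iff_surjective.1 (frobenius_inj F 2)) ⟨_, c2⟩
  have e : (x : k) = c := frobenius_inj k 2 (congrArg Subtype.val hx)
  rw [← mul_div_cancel_left₀ (m i j) c0]
  exact div_mem (hc i j) (e ▸ x.2)

/-- such a group is perfect and has an involution -/
theorem perf2 (G : Subgroup (G2 k)) [Finite G]
    (hd : ∀ g ∈ G, (g : Matrix (Fin 2) (Fin 2) k).det = 1) (hs : ¬ Group.IsSolvable G) :
    (∀ K : Subgroup (G2 k), (∀ x ∈ G, ∀ y ∈ G, ⁅x, y⁆ ∈ K) → G ≤ K) ∧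
      ∃ u ∈ G, u ≠ 1 ∧ u ^ 2 = 1 := by
  obtain ⟨F, P, h3, h, h'⟩ := big2 G hd hs
  haveI : Finite F := Nat.finite_of_card_ne_zero (by omega)
  letI := Fintype.ofFinite F
  refine ⟨fun K hK g hg => ?_, _, mem_cj.1 (h.up F.one_mem), fun e => ?_, ?_⟩
  · obtain ⟨a, -, a0⟩ := Finset.exists_mem_notMem_of_card_lt_card (s := ({0, 1} : Finset F))
      (t := Finset.univ) (lt_of_le_of_lt Finset.card_le_two (by
        rw [Finset.card_univ, ← Nat.card_eq_fintype_card]; omega))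
    rw [Finset.mem_insert, Finset.mem_singleton, not_or] at a0
    obtain ⟨a0, a1⟩ := a0
    have m := (mem_cj' (P := P)).2 hg
    refine (mem_cj' (P := P)).1 (h.perf a.2 (fun e => a0 (Subtype.ext e)) (fun e => a1 (Subtype.ext
      (frobenius_inj k 2 (e.trans (map_one _).symm)))) (fun x hx y hy => ?_) _ (h' _ m).1 (h' _ m).2)
    have := hK _ (mem_cj.1 hx) _ (mem_cj.1 hy)
    rw [mem_cj]
    convert this using 1
    simp only [commutatorElement_def]
    group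
  · rw [conj_eq_one_iff] at e
    exact one_ne_zero ((up_01 (1 : k)).symm.trans (by rw [e]; simp))
  · rw [conj_pow, conj_eq_one_iff, pow_two]
    apply ext4 <;> simp [mul_ap, CharTwo.add_self_eq_zero]

end Vale.Agent.P022K.Dk
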