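import Vale.Agent.P022K.Dk.Adb

/-!
P022K/Dk: equivariant additive functions on the root group.
-/

set_option linter.all false

namespace Vale.Agent.P022K.Dk

open MulAction Matrix OnePoint Matrix.GeneralLinearGroup
open scoped Classical Pointwise

variable {k : Type} [Field k]

/-- diagonal of determinant one -/
noncomputable def dg (t : k) (h : t ≠ 0) : G2 k := mk2 t 0 0 t⁻¹ (by simp [h])

theorem Std.dg {F : Subfield k} {G : Subgroup (G2 k)} (h : Std F G) {t : k} (ht : t ∈ F)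
    (h0 : t ≠ 0) : dg t h0 ∈ G :=
  h.1 _ (fun i j => by fin_cases i <;> fin_cases j <;> simp [Dk.dg, ht]) (by simp [Dk.dg, h0])

theorem up_par {t : k} (h : t ≠ 0) : (up t).IsParabolic := (par_tri rfl).2 ⟨rfl, h⟩

theorem lo_par {t : k} (h : t ≠ 0) : (lo t).IsParabolic := by
  have e : lo t * wey k = wey k * up (-t) := by
    apply ext4 <;> simp [mul_ap, wey]
  rw [eq_mul_inv_of_mul_eq e, GeneralLinearGroup.isParabolic_conj_iff]
  exact up_par (neg_ne_zero.2 h)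

theorem up_zero : up (0 : k) = 1 := ext4 rfl (by simp) (by simp) rfl

theorem lo_zero : lo (0 : k) = 1 := ext4 rfl (by simp) (by simp) rfl

/-- a subgroup which contains the parabolic elements contains `SL₂(F)` -/
theorem Std.sub {F : Subfield k} {G K : Subgroup (G2 k)} (h : Std F G)
    (hK : ∀ g ∈ G, g.IsParabolic → g ∈ K) (m : G2 k) (hm : ∀ i j, m i j ∈ F)
    (hd : m 0 0 * m 1 1 - m 0 1 * m 1 0 = 1) : m ∈ K := by
  refine sl2_gen F K (fun t ht => ?_) (fun t ht => ?_) m hm hd <;> by_cases h0 : t = 0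
  · rw [h0, up_zero]; exact K.one_mem
  · exact hK _ (h.up ht) (up_par h0)
  · rw [h0, lo_zero]; exact K.one_mem
  · exact hK _ (h.lo ht) (lo_par h0)

theorem alf_cj {P m : G2 k} (hP : P 1 0 = 0) (hm : m 1 0 = 0) :
    (P * m * P⁻¹) 1 0 = 0 ∧ (P * m * P⁻¹) 0 0 / (P * m * P⁻¹) 1 1 = m 0 0 / m 1 1 := by
  obtain ⟨i1, i2, i3, i4⟩ := inv_ap P
  obtain ⟨a, b⟩ := tri_ne hP
  obtain ⟨c, d⟩ := tri_ne hm
  simp only [mul_ap, i1, i2, i3, i4, hP, hm, mul_zero, zero_mul, add_zero, zero_add, sub_zero,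
    neg_zero, zero_div, true_and]
  field_simp

theorem tri_pow01 {g : G2 k} (h : g 1 0 = 0) (n : ℕ) :
    (g ^ n) 0 1 * (g 0 0 - g 1 1) = g 0 1 * (g 0 0 ^ n - g 1 1 ^ n) := by
  induction n with
  | zero => simp
  | succ n ih =>
    rw [pow_succ, mul_ap, (tri_pow h n).2.1]
    linear_combination g 1 1 * ih

/-- the projective orders in `PGL₂(F)` -/
theorem Std.ord [IsAlgClosed k] {F : Subfield k} [Finite F] {G : Subgroup (G2 k)} (h : Std F G)
    {g : G2 k} (hg : g ∈ G) :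
    g.IsParabolic ∨ g ^ (Nat.card F - 1) ∈ Zc k ∨ g ^ (Nat.card F + 1) ∈ Zc k := by
  by_cases hz : g ∈ Zc k
  · exact .inr (.inl ((Zc k).pow_mem hz _))
  refine or_iff_not_imp_left.2 fun hp => ?_
  obtain ⟨c, hc, hF⟩ := h.2 g hg
  obtain ⟨x, hx⟩ := exists_fix g
  obtain ⟨P, rfl⟩ := trans1 x
  have t := tri_cj.1 hx
  have r := (reg_tri t).1 ((reg_cj P g).2 (reg_iff.2 ⟨hz, hp⟩))
  have e1 : (P⁻¹ * g * P) 0 0 + (P⁻¹ * g * P) 1 1 = g 0 0 + g 1 1 := by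
    rw [← trace_fin_two, ← trace_fin_two, Units.val_mul, Units.val_mul, trace_units_conj']
  have e2 : (P⁻¹ * g * P) 0 0 * (P⁻¹ * g * P) 1 1 = g 0 0 * g 1 1 - g 0 1 * g 1 0 := by
    rw [← det_fin_two, ← det_units_conj' P, ← Units.val_mul, ← Units.val_mul, det_fin_two, t,
      mul_zero, sub_zero]
  rw [← pow_cj P, ← pow_cj P g]
  generalize P⁻¹ * g * P = a at *
  have key : ∀ n, a 0 0 ^ n = a 1 1 ^ n → a ^ n ∈ Zc k := fun n e => by
    have := tri_pow01 t n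
    rw [e, sub_self, mul_zero] at this
    exact mem_Zc.2 ⟨(mul_eq_zero.1 this).resolve_right (sub_ne_zero.2 r), (tri_pow t n).1,
      by rw [(tri_pow t n).2.1, (tri_pow t n).2.2, e]⟩
  letI := Fintype.ofFinite F
  obtain ⟨p, hp⟩ := CharP.exists F
  obtain ⟨n, hpp, hn⟩ := FiniteField.card F p
  haveI := Fact.mk hpp
  haveI : CharP k p := charP_of_injective_ringHom F.subtype.injective p
  have fr : ∀ z ∈ F, z ^ p ^ (n : ℕ) = z := fun z hz =>
    congrArg Subtype.val (hn ▸ FiniteField.pow_card (⟨z, hz⟩ : F))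
  have s1 := fr _ (F.add_mem (hF 0 0) (hF 1 1))
  have s2 := fr _ (F.sub_mem (F.mul_mem (hF 0 0) (hF 1 1)) (F.mul_mem (hF 0 1) (hF 1 0)))
  rw [← mul_add, ← e1, mul_add, add_pow_char_pow] at s1
  rw [show c * g 0 0 * (c * g 1 1) - c * g 0 1 * (c * g 1 0) = (c * a 0 0) * (c * a 1 1) by
    linear_combination (-c ^ 2) * e2, mul_pow] at s2
  rw [Nat.card_eq_fintype_card, hn]
  obtain ⟨q, hq⟩ : ∃ q, p ^ (n : ℕ) = q + 1 := ⟨_, (Nat.succ_pred_eq_of_pos (pow_pos hpp.pos _)).symm⟩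
  rw [hq] at s1 s2 ⊢
  have n0 := mul_ne_zero hc (tri_ne t).1
  have n1 := mul_ne_zero hc (tri_ne t).2
  have s3 : ((c * a 0 0) ^ (q + 1) - c * a 0 0) * ((c * a 0 0) ^ (q + 1) - c * a 1 1) = 0 := by
    linear_combination (c * a 0 0) ^ (q + 1) * s1 - s2
  rcases mul_eq_zero.1 s3 with s | s
  · refine .inl (key q (mul_left_cancel₀ (pow_ne_zero q hc) ?_))
    rw [← mul_pow, ← mul_pow, show (c * a 0 0) ^ q = 1 from mul_right_cancel₀ n0
      (by linear_combination s), show (c * a 1 1) ^ q = 1 from mul_right_cancel₀ n1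
      (by linear_combination s1 - s)]
  · refine .inr (key _ (mul_left_cancel₀ (pow_ne_zero (q + 1 + 1) hc) ?_))
    rw [← mul_pow, ← mul_pow]
    linear_combination (c * a 0 0 + c * a 1 1) * s - c * a 1 1 * s1

/-- additive functions on a module over a subfield which are semilinear for the squares -/
theorem semi (h2 : (2 : k) ≠ 0) {Γ : AddSubgroup k} [Finite Γ] {f : k → k}
    (ha : ∀ x ∈ Γ, ∀ y ∈ Γ, f (x + y) = f x + f y) {γ₀ : k} (h0 : γ₀ ∈ Γ) (h1 : f γ₀ ≠ 0)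
    (μ : k → k) (hμ : ∀ t ∈ Fld Γ, t ≠ 0 → ∀ γ ∈ Γ, f (t ^ 2 * γ) = μ t * f γ) :
    ∃ l : Fld Γ →+* k, (∀ a : Fld Γ, ∀ γ ∈ Γ, f (a * γ) = l a * f γ) ∧
      ∀ t : Fld Γ, t ≠ 0 → l t ^ 2 = μ t := by
  have z : f 0 = 0 := by simpa using ha 0 Γ.zero_mem 0 Γ.zero_mem
  have sq : ∀ t ∈ Fld Γ, ∃ c, ∀ γ ∈ Γ, f (t ^ 2 * γ) = c * f γ := fun t ht => by
    by_cases h : t = 0
    · exact ⟨0, fun γ _ => by simp [h, z]⟩
    · exact ⟨_, hμ t ht h⟩
  have al : ∀ a ∈ Fld Γ, ∀ γ ∈ Γ, f (a * γ) = f (a * γ₀) / f γ₀ * f γ := fun a h => by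
    have m2 : (2 : k) ∈ Fld Γ := by simpa using natCast_mem (Fld Γ) 2
    have m := div_mem (sub_mem h (one_mem _)) m2
    obtain ⟨c, hc⟩ := sq _ (div_mem (add_mem h (one_mem _)) m2)
    obtain ⟨d, hd⟩ := sq _ m
    have e : ∀ γ ∈ Γ, f (a * γ) = (c - d) * f γ := fun γ hγ => by
      have := ha _ (h γ hγ) _ (pow_mem m 2 γ hγ)
      rw [show a * γ + ((a - 1) / 2) ^ 2 * γ = ((a + 1) / 2) ^ 2 * γ by field_simp; ring, hc γ hγ,
        hd γ hγ] at this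
      linear_combination -this
    intro γ hγ
    rw [e γ hγ, e γ₀ h0, mul_div_cancel_right₀ _ h1]
  let l : Fld Γ →+* k :=
    { toFun := fun a => f (a * γ₀) / f γ₀
      map_one' := by simp [h1]
      map_mul' := fun a b => by
        rw [Subfield.coe_mul, mul_assoc, al a a.2 _ (b.2 _ h0), mul_div_assoc]
      map_zero' := by simp [z]
      map_add' := fun a b => by
        rw [Subfield.coe_add, add_mul, ha _ (a.2 _ h0) _ (b.2 _ h0), add_div] }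
  refine ⟨l, fun a => al a a.2, fun t ht => ?_⟩
  rw [← map_pow]
  change f (t ^ 2 * γ₀) / f γ₀ = _
  rw [hμ t t.2 (fun e => ht (Subtype.ext e)) _ h0, mul_div_cancel_right₀ _ h1]

open Polynomial in
theorem card_le_deg (F : Subfield k) (R : k[X]) (h0 : R ≠ 0) (h : ∀ t ∈ F, R.eval t = 0) :
    Nat.card F ≤ R.natDegree := by
  have : (F : Set k) ⊆ R.roots.toFinset := fun t ht => by simp [h0, h t ht]
  calc Nat.card F = (F : Set k).ncard := rfl
    _ ≤ _ := Set.ncard_le_ncard this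
    _ ≤ _ := by rw [Set.ncard_coe_finset]; exact (Multiset.toFinset_card_le _).trans (card_roots' _)

open Polynomial in
theorem card_inv (F : Subfield k) (l : F →+* k) (h : ∀ t : F, t ≠ 0 → l t ^ 2 * t ^ 2 = 1) :
    Nat.card F ≤ 10 := by
  have m : (X * (X + 1) * ((X + 1) ^ 4 - X ^ 2) * ((X ^ 2 - 1) ^ 2 - X ^ 2) : k[X]).Monic := by
    monicity!
  refine (card_le_deg F _ m.ne_zero fun t ht => ?_).trans (by compute_degree)
  simp only [eval_mul, eval_add, eval_sub, eval_pow, eval_X, eval_one]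
  by_cases h0 : t = 0
  · simp [h0]
  by_cases h1 : t + 1 = 0
  · simp [h1]
  have a := h ⟨t, ht⟩ fun e => h0 (congrArg Subtype.val e)
  have b := h (⟨t, ht⟩ + 1) fun e => h1 (congrArg Subtype.val e)
  rw [map_add, map_one] at b
  change _ * (t + 1) ^ 2 = 1 at b
  change _ * t ^ 2 = 1 at a
  generalize l ⟨t, ht⟩ = u at a b
  rw [← mul_pow, sq_eq_one_iff] at a
  rcases a with a | a
  · rw [show (t + 1) ^ 4 - t ^ 2 = 0 by
      linear_combination t ^ 2 * b - (t + 1) ^ 2 * (u * t + 1 + 2 * t) * a]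
    simp
  · rw [show (t ^ 2 - 1) ^ 2 - t ^ 2 = 0 by
      linear_combination t ^ 2 * b - (t + 1) ^ 2 * (u * t - 1 + 2 * t) * a]
    simp

section chr

variable [IsAlgClosed k] {Γ : Type} [Group Γ] (ρ : Γ →* G2 k) [Finite ρ.range] (ω : Γ →* kˣ)
  (hz : ∀ g, ρ g ∈ Zc k → ω g = 1)

include hz

omit [IsAlgClosed k] [Finite ρ.range] in
theorem ker_iff {g : Γ} : ρ g ∈ ω.ker.map ρ ↔ ω g = 1 := by
  refine ⟨fun ⟨g', h, e⟩ => ?_, fun h => ⟨g, h, rfl⟩⟩
  have := hz (g * g'⁻¹) (by rw [map_mul, map_inv, e, mul_inv_cancel]; exact one_mem _)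
  rwa [map_mul, map_inv, show ω g' = 1 from h, inv_one, mul_one] at this

theorem chr_par {g : Γ} (hp : (ρ g).IsParabolic) : ω g = 1 := by
  haveI := Fact.mk (par_char (G := ρ.range) ⟨g, rfl⟩ hp)
  have h := hz (g ^ ringChar k) (by rw [map_pow, par_pow hp]; exact ringChar.Nat.cast_ringChar)
  have h' : (ω g : k) ^ ringChar k = 1 := by rw [← Units.val_pow_eq_pow_val, ← map_pow, h]; rfl
  rw [← sub_eq_zero, ← one_pow (ringChar k), ← sub_pow_char] at h'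
  exact Units.ext (sub_eq_zero.1 (pow_eq_zero_iff (Fact.out : (ringChar k).Prime).ne_zero |>.1 h'))

theorem chr_uni {g : Γ} (hp : ρ g ∈ Uni k) : ω g = 1 :=
  (mem_Uni'.1 hp).2.elim (hz g) (chr_par ρ ω hz)

omit [IsAlgClosed k] hz in
theorem fin_map (K : Subgroup Γ) : Finite (K.map ρ) :=
  Finite.Set.subset (ρ.range : Set (G2 k)) (Subgroup.map_le_range ρ K)

theorem orb_ker {g₀ : Γ} (hp : (ρ g₀).IsParabolic) (h0 : ρ g₀ 1 0 = 0) :
    orbit (ω.ker.map ρ) (∞ : OnePoint k) = orbit ρ.range (∞ : OnePoint k) := by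
  haveI := fin_map ρ ω.ker
  ext x
  refine ⟨fun h => ?_, fun h => ?_⟩
  · obtain ⟨g, hg, e⟩ := mem_orb.1 h
    exact mem_orb.2 ⟨g, Subgroup.map_le_range ρ _ hg, e⟩
  · obtain ⟨_, ⟨g, rfl⟩, rfl⟩ := mem_orb.1 h
    have hp' : (ρ (g * g₀ * g⁻¹)).IsParabolic := by
      rwa [map_mul, map_mul, map_inv, GeneralLinearGroup.isParabolic_conj_iff]
    refine par_orb (G := ω.ker.map ρ) ⟨_, chr_par ρ ω hz hp', rfl⟩ ⟨_, chr_par ρ ω hz hp, rfl⟩ hp' hp ?_
      (smul_infty_eq_self_iff.2 h0)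
    rw [map_mul, map_mul, map_inv, mul_smul, mul_smul, inv_smul_smul, smul_infty_eq_self_iff.2 h0]

/-- a character which is trivial on the Borel subgroup is trivial -/
theorem frattini {g₀ : Γ} (hp : (ρ g₀).IsParabolic) (h0 : ρ g₀ 1 0 = 0)
    (h : ∀ b, ρ b 1 0 = 0 → ω b = 1) : ω = 1 := by
  ext1 g
  obtain ⟨_, ⟨κ, hκ, rfl⟩, e⟩ := mem_orb.1 (orb_ker ρ ω hz hp h0 ▸
    mem_orb.2 ⟨ρ g, ⟨g, rfl⟩, rfl⟩ : ρ g • (∞ : OnePoint k) ∈ orbit (ω.ker.map ρ) (∞ : OnePoint k))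
  have := h (κ⁻¹ * g) (smul_infty_eq_self_iff.1 (by rw [map_mul, map_inv, mul_smul, ← e, inv_smul_smul]))
  rwa [map_mul, map_inv, show ω κ = 1 from hκ, inv_one, one_mul] at this

theorem Gam_ker : Gam (ω.ker.map ρ) = Gam ρ.range := by
  ext γ
  refine ⟨fun ⟨g, hg, h⟩ => ⟨g, Subgroup.map_le_range ρ _ hg, h⟩, ?_⟩
  rintro ⟨_, ⟨g, rfl⟩, h⟩
  exact ⟨_, ⟨g, chr_uni ρ ω hz h.1, rfl⟩, h⟩

end chr

/-- the exceptional groups `PGL₂(F_3)`, `PGL₂(F_5)`, `PGL₂(F_9)` are among these -/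
def Exc (G : Subgroup (G2 k)) : Prop :=
  ((3 : k) = 0 ∨ (5 : k) = 0) ∧
    ∃ (F : Subfield k) (P : G2 k), 3 ≤ Nat.card F ∧ Nat.card F ≤ 10 ∧ Std F (cj P G)

theorem Exc.ord [IsAlgClosed k] {G : Subgroup (G2 k)} (h : Exc G) {g : G2 k} (hg : g ∈ G) :
    ∃ n, 1 ≤ n ∧ n ≤ 11 ∧ g ^ n ∈ Zc k := by
  obtain ⟨h1, F, P, h2, h3, h⟩ := h
  haveI : Finite F := Nat.finite_of_card_ne_zero (by omega)
  rcases h.ord (mem_cj'.2 hg) with h | h | h
  · have h := (isParabolic_conj_iff' P g).1 h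
    exact h1.elim (fun e => ⟨3, by omega, by omega, (par_pow h 3).2 (by simpa using e)⟩)
      fun e => ⟨5, by omega, by omega, (par_pow h 5).2 (by simpa using e)⟩
  · exact ⟨_, by omega, by omega, (pow_cj P g _).1 h⟩
  · exact ⟨_, by omega, by omega, (pow_cj P g _).1 h⟩

/-- **no equivariant additive function on the root group**, outside the exceptional groups -/
theorem adqa [IsAlgClosed k] (h2 : (2 : k) ≠ 0) {Γ : Type} [Group Γ] (ρ : Γ →* G2 k)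
    [Finite ρ.range] (hi : ¬ Red ρ.range) (ω : Γ →* kˣ) (hω : ω ≠ 1)
    (hE : (∀ g, ρ g ∈ Zc k → ω g = 1) → ¬ Exc ρ.range) (ε : ℤ) (hε : ε = 1 ∨ ε = 0 ∨ ε = -1)
    (f : k → k) (ha : ∀ x ∈ Gam ρ.range, ∀ y ∈ Gam ρ.range, f (x + y) = f x + f y)
    (he : ∀ b, ρ b 1 0 = 0 → ∀ γ ∈ Gam ρ.range,
      f (ρ b 0 0 / ρ b 1 1 * γ) = (ρ b 0 0 / ρ b 1 1) ^ ε * ω b * f γ) :
    ∀ γ ∈ Gam ρ.range, f γ = 0 := by
  intro γ₀ h0
  by_contra h1
  have hz : ∀ g, ρ g ∈ Zc k → ω g = 1 := fun g hg => by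
    obtain ⟨-, a, b⟩ := mem_Zc.1 hg
    have := he g a γ₀ h0
    rw [b, div_self (tri_ne a).2, one_mul, _root_.one_zpow, one_mul] at this
    exact Units.ext ((mul_eq_right₀ h1).1 this.symm)
  have n0 : γ₀ ≠ 0 := fun e => h1 (by simpa [e] using ha 0 (zero_mem _) 0 (zero_mem _))
  obtain ⟨g₀, e₀⟩ := up_mem h0
  have hp : (ρ g₀).IsParabolic := e₀ ▸ up_par n0
  have t₀ : ρ g₀ 1 0 = 0 := e₀ ▸ rfl
  have hB := mt (frattini ρ ω hz hp t₀) hω
  haveI := fin_map ρ ω.ker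
  rcases wild ρ.range ⟨g₀, rfl⟩ hp t₀ with h | h | h | ⟨h3, -, P, hP, hc, h⟩
  · exact hi (red_iff.2 ⟨1, by rwa [cj_one]⟩)
  · exact h2 h.2
  · obtain ⟨-, -, -, c1, c2, c3⟩ := h
    have e1 := Gam_ker ρ ω hz
    have e2 : Fin0 (ω.ker.map ρ) = Fin0 ρ.range := by rw [Fin0, orb_ker ρ ω hz hp t₀]; rfl
    rcases wild (ω.ker.map ρ) ⟨g₀, chr_par ρ ω hz hp, rfl⟩ hp t₀ with h | h | h | h
    · have : Fin0 (ω.ker.map ρ) = ∅ := Set.eq_empty_of_forall_notMem fun z hz => by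
        obtain ⟨g, hg, e⟩ := mem_orb.1 hz
        exact infty_ne_coe _ ((smul_infty_eq_self_iff.2 (h hg)).symm.trans e)
      rw [← e2, this] at c3
      simp at c3
    · exact h2 h.2
    · have e3 : Mul (ω.ker.map ρ) = Mul ρ.range := Subgroup.eq_of_le_of_card_ge (fun a ha => by
        obtain ⟨g, hg, h⟩ := (mem_Mul _).1 ha
        exact (mem_Mul _).2 ⟨g, Subgroup.map_le_range ρ _ hg, h⟩) (by rw [c2, h.2.2.2.2.1])
      refine hB fun b hb => ?_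
      obtain ⟨_, ⟨κ, hκ, rfl⟩, t, e⟩ := (mem_Mul _).1 (e3 ▸ (mem_Mul _).2 ⟨_, ⟨b, rfl⟩, hb, rfl⟩ :
        alf ⟨ρ b, hb⟩ ∈ Mul (ω.ker.map ρ))
      have e4 : alf (⟨ρ κ, t⟩⁻¹ * ⟨ρ b, hb⟩ : Bor k) = 1 := by
        rw [map_mul, map_inv, show alf ⟨ρ κ, t⟩ = alf ⟨ρ b, hb⟩ from Units.ext e, inv_mul_cancel]
      have m := (⟨ρ κ, t⟩⁻¹ * ⟨ρ b, hb⟩ : Bor k).2
      have := chr_uni ρ ω hz (g := κ⁻¹ * b) (by
        rw [map_mul, map_inv]
        exact ⟨m, (div_eq_one_iff_eq (tri_ne m).2).1 (congrArg Units.val e4)⟩)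
      rwa [map_mul, map_inv, show ω κ = 1 from hκ, inv_one, one_mul] at this
    · have := h.2.1
      rw [e1, e2] at this
      omega
  obtain ⟨l, l1, l2⟩ := semi h2 ha h0 h1 (fun t => (t ^ 2) ^ ε) fun t ht h0 γ hγ => by
    obtain ⟨b, hb, e⟩ := mem_cj.1 (h.sub (K := cj P (ω.ker.map ρ)) (fun g hg hp => by
      obtain ⟨g', e⟩ := mem_cj.1 hg
      exact mem_cj.2 ⟨g', chr_par ρ ω hz
        (e ▸ (GeneralLinearGroup.isParabolic_conj_iff P g).2 hp), e⟩) (dg t h0)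
      (fun i j => by fin_cases i <;> fin_cases j <;> simp [dg, ht]) (by simp [dg, h0]))
    have a := alf_cj hP (show dg t h0 1 0 = 0 from rfl)
    rw [← e] at a
    have := he b a.1 γ hγ
    rwa [a.2, show ω b = 1 from hb, Units.val_one, mul_one,
      show dg t h0 0 0 / dg t h0 1 1 = t ^ 2 by simp [dg, pow_two]] at this
  have two : (2 : Fld (Gam ρ.range)) ≠ 0 := fun e => h2 (congrArg Subtype.val e)
  have l3 := l2 2 two
  rw [map_ofNat, show ((2 : Fld (Gam ρ.range)) : k) = 2 from rfl] at l3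
  rcases hε with rfl | rfl | rfl
  · have l4 : ∀ t : Fld (Gam ρ.range), l t ^ 2 = t ^ 2 := fun t => by
      by_cases h : t = 0
      · simp [h]
      · simpa using l2 t h
    refine hB fun b hb => ?_
    have m : ρ b 0 0 / ρ b 1 1 ∈ Fld (Gam ρ.range) := fun γ hγ =>
      Mul_Gam _ ((mem_Mul _).2 ⟨_, ⟨b, rfl⟩, hb, rfl⟩ : alf ⟨ρ b, hb⟩ ∈ Mul ρ.range) hγ
    have a := l4 ⟨_, m⟩
    have c := l4 (⟨_, m⟩ + 1)
    have d := l1 ⟨_, m⟩ γ₀ h0
    rw [map_add, map_one] at c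
    rw [he b hb γ₀ h0, zpow_one] at d
    change _ = (ρ b 0 0 / ρ b 1 1 + 1) ^ 2 at c
    change _ = (ρ b 0 0 / ρ b 1 1) ^ 2 at a
    have e : l ⟨_, m⟩ = ρ b 0 0 / ρ b 1 1 := mul_left_cancel₀ h2 (by linear_combination c - a)
    rw [e] at d
    exact Units.ext ((mul_eq_left₀ (div_ne_zero (tri_ne hb).1 (tri_ne hb).2)).1
      (mul_right_cancel₀ h1 d))
  · refine hE hz ⟨.inl (by rw [zpow_zero] at l3; linear_combination l3), _, P, hc ▸ h3, ?_, h⟩
    open Polynomial in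
    have m : (X * (X ^ 2 - 1) : k[X]).Monic := by monicity!
    refine (card_le_deg _ _ m.ne_zero fun t ht => ?_).trans (by compute_degree!)
    by_cases h : t = 0
    · simp [h]
    have a := l2 ⟨t, ht⟩ fun e => h (congrArg Subtype.val e)
    rw [zpow_zero, ← map_pow, ← map_one l] at a
    have : t ^ 2 = 1 := congrArg Subtype.val (l.injective a)
    simp [this]
  · refine hE hz ⟨?_, _, P, hc ▸ h3, card_inv _ l fun t ht => ?_, h⟩
    · rw [_root_.zpow_neg, zpow_one] at l3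
      field_simp at l3
      exact mul_eq_zero.1 (by linear_combination l3)
    · rw [l2 t ht, _root_.zpow_neg, zpow_one,
        inv_mul_cancel₀ (pow_ne_zero 2 fun e => ht (Subtype.ext e))]

end Vale.Agent.P022K.Dk
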