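import Vale.Agent.P022K.Dk.Main

/-!
P022K/Dk: involutions, normal subgroups, regular elements with a fixed vector.
-/

set_option linter.all false

namespace Vale.Agent.P022K.Dk

open MulAction Matrix OnePoint Matrix.GeneralLinearGroup
open scoped Classical Pointwise

variable {k : Type} [Field k]

/-- distinct eigenvalues -/
def Reg (g : G2 k) : Prop :=
  (g : Matrix (Fin 2) (Fin 2) k).trace ^ 2 ≠ 4 * (g : Matrix (Fin 2) (Fin 2) k).det

theorem reg_iff {g : G2 k} : Reg g ↔ g ∉ Zc k ∧ ¬ g.IsParabolic := by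
  rw [Reg, ← sub_ne_zero, ← discr_fin_two, mem_center_iff_val_mem_range_scalar]
  refine ⟨fun h => ⟨?_, fun h' => h h'.2⟩, fun h h' => h.2 ⟨h.1, h'⟩⟩
  rintro ⟨a, e⟩
  apply h
  rw [← e, discr_fin_two, trace_fin_two, det_fin_two]
  simp
  ring

theorem reg_ent {g : G2 k} : Reg g ↔ (g 0 0 - g 1 1) ^ 2 + 4 * (g 0 1 * g 1 0) ≠ 0 := by
  rw [Reg, ← sub_ne_zero, trace_fin_two, det_fin_two]
  congr! 1
  ring

theorem reg_cj (P g : G2 k) : Reg (P⁻¹ * g * P) ↔ Reg g := by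
  rw [reg_iff, reg_iff, isParabolic_conj_iff', ← Zc_cj P⁻¹ (g := g), inv_inv]

theorem reg_tri {g : G2 k} (h : g 1 0 = 0) : Reg g ↔ g 0 0 ≠ g 1 1 := by
  rw [reg_ent, h]
  simp [sub_eq_zero]

theorem Zc_fix {g z : G2 k} (hz : z ∈ Zc k) (x : OnePoint k) : (z * g) • x = g • x := by
  rw [mul_smul, Zc_smul hz]

/-- an element which exchanges two points is a projective involution -/
theorem swap_sq {g : G2 k} {x y : OnePoint k} (h : x ≠ y) (h1 : g • x = y) (h2 : g • y = x) :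
    g ^ 2 ∈ Zc k := by
  obtain ⟨P, rfl, rfl⟩ := trans2 h
  rw [← pow_cj P]
  refine sq_Zc ?_
  rw [smul_inf_zero.1 (by rw [mul_smul, mul_smul, h1, inv_smul_smul]),
    smul_zero_inf.1 (by rw [mul_smul, mul_smul, h2, inv_smul_smul]), add_zero]

/-- a prime which divides the projective order is the order of a projective element -/
theorem cauchy (G : Subgroup (G2 k)) [Finite G] (l : ℕ) [Fact l.Prime] (h : l ∣ pord G) :
    ∃ g ∈ G, g ∉ Zc k ∧ g ^ l ∈ Zc k := by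
  obtain ⟨x, hx⟩ := exists_prime_orderOf_dvd_card' (G := G ⧸ (Zc k).subgroupOf G) l h
  obtain ⟨g, rfl⟩ := QuotientGroup.mk_surjective x
  refine ⟨g, g.2, fun hz => ?_, ?_⟩
  · rw [(QuotientGroup.eq_one_iff g).2 hz, orderOf_one] at hx
    exact (Fact.out : l.Prime).one_lt.ne hx
  · have := pow_orderOf_eq_one (g : G ⧸ (Zc k).subgroupOf G)
    rw [hx, ← QuotientGroup.mk_pow, QuotientGroup.eq_one_iff] at this
    exact this

/-- the Weyl element -/
noncomputable def wey (k : Type) [Field k] : G2 k := mk2 0 (-1) 1 0 (by simp)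

theorem Std.wey {F : Subfield k} {G : Subgroup (G2 k)} (h : Std F G) : wey k ∈ G :=
  h.1 _ (fun i j => by fin_cases i <;> fin_cases j <;> simp [Dk.wey]) (by simp [Dk.wey])

theorem Std.up {F : Subfield k} {G : Subgroup (G2 k)} (h : Std F G) {t : k} (ht : t ∈ F) :
    up t ∈ G :=
  h.1 _ (fun i j => by fin_cases i <;> fin_cases j <;> simp [ht]) (by simp)

theorem Std.lo {F : Subfield k} {G : Subgroup (G2 k)} (h : Std F G) {t : k} (ht : t ∈ F) :
    lo t ∈ G :=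
  h.1 _ (fun i j => by fin_cases i <;> fin_cases j <;> simp [ht]) (by simp)

/-- an irreducible finite group contains a projective involution -/
theorem exists_inv [IsAlgClosed k] (G : Subgroup (G2 k)) [Finite G] (h : ¬ Red G) :
    ∃ g ∈ G, g ∉ Zc k ∧ g ^ 2 ∈ Zc k := by
  have key : ∀ P, ∀ m ∈ cj P G, m 0 0 = 0 → m 1 1 = 0 → ∃ g ∈ G, g ∉ Zc k ∧ g ^ 2 ∈ Zc k :=
    fun P m hm h0 h1 => ⟨_, mem_cj.1 hm, fun hz => (tri_ne (mem_Zc.1 ((Zc_cj P).1 hz)).2.1).1 h0,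
      by rw [conj_pow, Zc_cj]; exact sq_Zc (by rw [h0, h1, add_zero])⟩
  rcases dickson G with h1 | ⟨P, h1⟩ | h1 | ⟨F, P, -, h1⟩
  · exact (h h1).elim
  · by_contra hn
    exact h (red_iff.2 ⟨P, fun m hm => (h1 m hm).elim (fun h => h.2)
      fun h => (hn (key P m hm h.1 h.2)).elim⟩)
  · refine cauchy G 2 ?_
    rcases h1.1 with h | h | h <;> rw [h.1] <;> norm_num
  · exact key P _ h1.wey rfl rfl

/-- a group without regular elements fixes a point -/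
theorem par_same (h2 : (2 : k) ≠ 0) {K : Subgroup (G2 k)} (hK : ∀ g ∈ K, ¬ Reg g) {g h : G2 k}
    (hg : g ∈ K) (hh : h ∈ K) (hg' : g ∉ Zc k) (hh' : h ∉ Zc k) {x y : OnePoint k}
    (hx : g • x = x) (hy : h • y = y) : x = y := by
  by_contra hne
  obtain ⟨P, rfl, rfl⟩ := trans2 hne
  have a1 := tri_cj.1 hx
  have b1 : (P⁻¹ * h * P) 0 1 = 0 := smul_zero_iff.1 (by rw [mul_smul, mul_smul, hy, inv_smul_smul])
  have r : ∀ g ∈ K, ((P⁻¹ * g * P) 0 0 - (P⁻¹ * g * P) 1 1) ^ 2 +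
      4 * ((P⁻¹ * g * P) 0 1 * (P⁻¹ * g * P) 1 0) = 0 := fun g hg =>
    not_not.1 (mt reg_ent.2 (mt (reg_cj P g).1 (hK g hg)))
  have r1 := r g hg
  have r2 := r h hh
  have r3 := r _ (K.mul_mem hg hh)
  have r4 := r _ (K.mul_mem (K.mul_mem hg hg) hh)
  rw [show P⁻¹ * (g * h) * P = (P⁻¹ * g * P) * (P⁻¹ * h * P) by group] at r3
  rw [show P⁻¹ * (g * g * h) * P = (P⁻¹ * g * P) * (P⁻¹ * g * P) * (P⁻¹ * h * P) by group] at r4
  rw [← Zc_cj P⁻¹, inv_inv, mem_Zc] at hg' hh'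
  generalize P⁻¹ * g * P = a at *
  generalize P⁻¹ * h * P = b at *
  have a2 : a 0 0 = a 1 1 := by simpa [a1, sub_eq_zero] using r1
  have b2 : b 0 0 = b 1 1 := by simpa [b1, sub_eq_zero] using r2
  have a3 : a 0 1 ≠ 0 := fun e => hg' ⟨e, a1, a2⟩
  have b3 : b 1 0 ≠ 0 := fun e => hh' ⟨b1, e, b2⟩
  have a4 := (tri_ne a1).2
  have b4 : b 1 1 ≠ 0 := fun e => det_ne b (by simp [e, b1])
  simp only [mul_ap, a1, a2, b1, b2] at r3 r4
  have s3 : a 0 1 * b 1 0 + 4 * (a 1 1 * b 1 1) = 0 :=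
    mul_left_cancel₀ (mul_ne_zero a3 b3) (by linear_combination r3)
  have s4 : 2 * (a 0 1 * b 1 0) + 4 * (a 1 1 * b 1 1) = 0 :=
    mul_left_cancel₀ (mul_ne_zero (mul_ne_zero h2 (pow_ne_zero 2 a4)) (mul_ne_zero a3 b3))
      (by linear_combination r4)
  exact mul_ne_zero a3 b3 (by linear_combination s4 - s3)

section act

variable {Γ : Type} [Group Γ] (ρ : Γ →* G2 k)

/-- a normal subgroup without regular elements of an irreducible group is scalar -/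
theorem normal_Zc [IsAlgClosed k] (h2 : (2 : k) ≠ 0) (hi : ¬ Red ρ.range) (K : Subgroup Γ)
    [hK : K.Normal] (h : ∀ g ∈ K, ¬ Reg (ρ g)) {g : Γ} (hg : g ∈ K) : ρ g ∈ Zc k := by
  by_contra hz
  obtain ⟨x, hx⟩ := exists_fix (ρ g)
  refine hi (red_iff'.2 ⟨x, ?_⟩)
  rintro _ ⟨γ, rfl⟩
  refine par_same h2 (K := K.map ρ) ?_ ⟨_, hK.conj_mem g hg γ, rfl⟩ ⟨g, hg, rfl⟩ ?_ hz ?_ hx
  · rintro _ ⟨g, hg, rfl⟩
    exact h g hg
  · rwa [map_mul, map_mul, map_inv, Zc_cj]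
  · rw [map_mul, map_mul, map_inv, mul_smul, mul_smul, inv_smul_smul, hx]

/-- **a regular element with a fixed vector**: every non zero module on which the scalars act
trivially has a non zero vector fixed by an element with distinct eigenvalues. -/
theorem adqb [IsAlgClosed k] (h2 : (2 : k) ≠ 0) [Finite ρ.range] (hi : ¬ Red ρ.range)
    {W : Type} [AddCommGroup W] [Nontrivial W] (σ : Γ → W →+ W) (h1 : ∀ w, σ 1 w = w)
    (hm : ∀ g h w, σ (g * h) w = σ g (σ h w)) (hz : ∀ g, ρ g ∈ Zc k → ∀ w, σ g w = w) :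
    ∃ s w, w ≠ 0 ∧ σ s w = w ∧ Reg (ρ s) := by
  by_contra hn
  push Not at hn
  obtain ⟨w₀, hw₀⟩ := exists_ne (0 : W)
  have i1 : ∀ g w, σ g (σ g⁻¹ w) = w := fun g w => by rw [← hm, mul_inv_cancel, h1]
  let K : Subgroup Γ :=
    { carrier := {g | ∀ w, σ g w = w}
      mul_mem' := fun {a b} ha hb w => by rw [hm, hb, ha]
      one_mem' := h1
      inv_mem' := fun {a} ha w => by rw [← ha (σ a⁻¹ w), i1] }
  haveI : K.Normal := ⟨fun a ha g w => by rw [hm, hm, ha, i1]⟩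
  have hK : ∀ g, (∀ w, σ g w = w) → ρ g ∈ Zc k := fun g hg =>
    normal_Zc ρ h2 hi K (fun g hg => hn g w₀ hw₀ (hg w₀)) hg
  have inv : ∀ s, ρ s ∉ Zc k → ρ s ^ 2 ∈ Zc k → Reg (ρ s) ∧ ∀ w, σ s w = -w := fun s a b => by
    have r : Reg (ρ s) := reg_iff.2 ⟨a, fun hp => h2 (by simpa using (par_pow hp 2).1 b)⟩
    refine ⟨r, fun w => eq_neg_of_add_eq_zero_left (by_contra fun h0 => hn s _ h0 ?_ r)⟩
    rw [map_add, ← hm, hz (s * s) (by rwa [map_mul, ← pow_two]), add_comm]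
  have two : ∀ s t, (∀ w, σ s w = -w) → (∀ w, σ t w = -w) → ∀ x : OnePoint k, ρ s • x = ρ t • x :=
    fun s t hs ht x => by
      have := hK (s * t⁻¹) fun w => by rw [hm, hs, ← ht, i1]
      rw [← Zc_fix (g := ρ t) this, map_mul, map_inv, inv_mul_cancel_right]
  obtain ⟨_, ⟨s, rfl⟩, a, b⟩ := exists_inv _ hi
  obtain ⟨r, hs⟩ := inv s a b
  obtain ⟨x, hx⟩ := exists_fix (ρ s)
  obtain ⟨y, hxy, e⟩ := ss_fix a (reg_iff.1 r).2 hx
  have fx : ∀ γ, ∀ z, ρ s • z = z → ρ s • ρ γ • z = ρ γ • z := fun γ z hz' => by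
    rw [two s (γ * s * γ⁻¹) hs fun w => by rw [hm, hm, hs, map_neg, i1], map_mul, map_mul, map_inv,
      mul_smul, mul_smul, inv_smul_smul, hz']
  have fy : ∀ z, ρ s • z = z ↔ z = x ∨ z = y := fun z => by
    rw [← mem_fixedBy, e]
    rfl
  refine hi (red_iff'.2 ⟨x, ?_⟩)
  rintro _ ⟨γ, rfl⟩
  by_contra hγ
  have e1 : ρ γ • x = y := ((fy _).1 (fx γ x hx)).resolve_left hγ
  have e2 : ρ γ • y = x := ((fy _).1 (fx γ y ((fy _).2 (.inr rfl)))).resolve_right fun h =>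
    hxy (smul_left_cancel (ρ γ) (e1.trans h.symm))
  exact hγ ((two γ s (inv γ (fun h => hγ (Zc_smul h x)) (swap_sq hxy e1 e2)).2 hs x).trans hx)

end act

end Vale.Agent.P022K.Dk
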