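import Mathlib

/-!
P022K/Dk: the orbit count of Klein and Dickson (abstract form) and its arithmetic.
-/

set_option linter.all false

namespace Vale.Agent.P022K.Dk

open MulAction Finset

section count

variable {G X : Type} [Group G] [Fintype G] [MulAction G X]

open Classical in
/-- the weight of a point -/
noncomputable def wt (w : G → ℕ) (y : X) : ℕ := ∑ g : G, if g • y = y then w g else 0

theorem wt_smul {w : G → ℕ} (hw : ∀ g h, w (h * g * h⁻¹) = w g) (h : G) (y : X) :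
    wt w (h • y) = wt w y := by
  classical
  unfold wt
  rw [← (MulAut.conj h).toEquiv.sum_comp]
  refine sum_congr rfl fun g _ => ?_
  have e : (MulAut.conj h).toEquiv g = h * g * h⁻¹ := rfl
  rw [e, hw, mul_smul, mul_smul, inv_smul_smul]
  simp only [smul_left_cancel_iff]

theorem orbit_finite (y : X) : (orbit G y).Finite := Set.finite_range _

/-- the weighted count of fixed points, orbit by orbit -/
theorem count (w : G → ℕ) (hw : ∀ g h, w (h * g * h⁻¹) = w g)
    (hf : ∀ g, w g ≠ 0 → (fixedBy X g).Finite) :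
    ∃ R : Finset X, (∀ y ∈ R, ∃ g, w g ≠ 0 ∧ g • y = y) ∧
      (∀ x g, w g ≠ 0 → g • x = x → ∃ y ∈ R, x ∈ orbit G y) ∧
      (∀ x ∈ R, ∀ y ∈ R, x ∈ orbit G y → x = y) ∧
      ∑ g, w g * (fixedBy X g).ncard = ∑ y ∈ R, (orbit G y).ncard * wt w y := by
  classical
  have hY : {x : X | ∃ g, w g ≠ 0 ∧ g • x = x}.Finite := by
    refine (Set.Finite.biUnion (Set.toFinite {g | w g ≠ 0}) hf).subset ?_
    rintro x ⟨g, h1, h2⟩
    exact Set.mem_biUnion (x := g) h1 h2
  set Y := hY.toFinset with hYd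
  have mY : ∀ x, x ∈ Y ↔ ∃ g, w g ≠ 0 ∧ g • x = x := fun x => by simp [hYd]
  have iY : ∀ (h : G) x, x ∈ Y → h • x ∈ Y := fun h x hx => by
    obtain ⟨g, h1, h2⟩ := (mY x).1 hx
    exact (mY _).2 ⟨h * g * h⁻¹, by rwa [hw], by rw [mul_smul, mul_smul, inv_smul_smul, h2]⟩
  let rep : X → X := fun x => (Quotient.mk (orbitRel G X) x).out
  have r1 : ∀ x, rep x ∈ orbit G x := fun x => Quotient.mk_out (s := orbitRel G X) x
  have r2 : ∀ x y, x ∈ orbit G y → rep x = rep y := fun x y h => by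
    have : Quotient.mk (orbitRel G X) x = Quotient.mk (orbitRel G X) y := Quotient.sound h
    simp only [rep, this]
  have r3 : ∀ x, x ∈ orbit G (rep x) := fun x => mem_orbit_symm.1 (r1 x)
  have r4 : ∀ x, rep (rep x) = rep x := fun x => r2 _ _ (r1 x)
  have rY : ∀ x ∈ Y, rep x ∈ Y := fun x hx => by
    obtain ⟨h, e⟩ := r1 x
    rw [← e]
    exact iY h x hx
  refine ⟨Y.image rep, fun y hy => ?_, fun x g h1 h2 => ?_, fun x hx y hy h => ?_, ?_⟩
  · obtain ⟨x, hx, rfl⟩ := mem_image.1 hy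
    exact (mY _).1 (rY x hx)
  · exact ⟨rep x, mem_image_of_mem _ ((mY x).2 ⟨g, h1, h2⟩), r3 x⟩
  · obtain ⟨x, -, rfl⟩ := mem_image.1 hx
    obtain ⟨y, -, rfl⟩ := mem_image.1 hy
    rw [← r4 x, r2 _ _ h, r4]
  · have e1 : ∑ g, w g * (fixedBy X g).ncard = ∑ x ∈ Y, wt w x := by
      unfold wt
      rw [sum_comm]
      refine sum_congr rfl fun g _ => ?_
      by_cases h0 : w g = 0
      · simp [h0]
      · rw [← sum_filter, sum_const, smul_eq_mul, mul_comm]
        congr 1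
        rw [← Set.ncard_coe_finset]
        congr 1
        ext x
        simp only [coe_filter, Set.mem_setOf_eq, mem_fixedBy]
        exact ⟨fun h => ⟨(mY x).2 ⟨g, h0, h⟩, h⟩, fun h => h.2⟩
    rw [e1, ← sum_fiberwise_of_maps_to (s := Y) (t := Y.image rep) (g := rep)
      fun x hx => mem_image_of_mem _ hx]
    refine sum_congr rfl fun y hy => ?_
    obtain ⟨x, hx, rfl⟩ := mem_image.1 hy
    rw [sum_congr rfl (g := fun _ => wt w (rep x)), sum_const, smul_eq_mul]
    · congr 1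
      rw [← Set.ncard_coe_finset]
      congr 1
      ext z
      simp only [coe_filter, Set.mem_setOf_eq]
      refine ⟨fun h => h.2 ▸ r3 z, fun h => ⟨?_, (r2 _ _ h).trans (r4 x)⟩⟩
      obtain ⟨g, e⟩ := h
      rw [← e]
      exact iY g _ (rY x hx)
    · intro z hz
      obtain ⟨g, e⟩ := r3 z
      rw [← (mem_filter.1 hz).2]
      conv_lhs => rw [← e]
      exact wt_smul hw g _

theorem orbit_mul (y : X) : (orbit G y).ncard * Nat.card (stabilizer G y) = Nat.card G := by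
  rw [← index_stabilizer, Subgroup.index_mul_card]

/-- a free action on a finite set -/
theorem free_dvd (S : Set X) (hS : S.Finite) (hi : ∀ (g : G), ∀ x ∈ S, g • x ∈ S)
    (hf : ∀ (g : G), ∀ x ∈ S, g • x = x → g = 1) : Nat.card G ∣ S.ncard := by
  classical
  let T : SubMulAction G X := ⟨S, fun g {x} hx => hi g x hx⟩
  haveI : Finite T := hS
  letI := Fintype.ofFinite T
  letI : ∀ a : G, Fintype (fixedBy T a) := fun a => Fintype.ofFinite _
  letI : Fintype (Quotient (orbitRel G T)) := Fintype.ofFinite _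
  have h := sum_card_fixedBy_eq_card_orbits_mul_card_group G T
  rw [sum_eq_single (1 : G)] at h
  · rw [← Nat.card_eq_fintype_card, fixedBy_one_eq_univ, Nat.card_coe_set_eq, Set.ncard_univ,
      ← Nat.card_eq_fintype_card (α := G)] at h
    have e : Nat.card T = S.ncard := Nat.card_coe_set_eq S
    rw [← e, h]
    exact Dvd.intro_left _ rfl
  · intro g _ hg
    rw [Fintype.card_eq_zero_iff]
    exact ⟨fun x => hg (hf g x.1.1 x.1.2 (congrArg Subtype.val x.2))⟩
  · simp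

end count

/-- three orbits -/
theorem arith3 {N n₁ n₂ n₃ e₁ e₂ e₃ : ℕ} (h₁ : n₁ * e₁ = N) (h₂ : n₂ * e₂ = N) (h₃ : n₃ * e₃ = N)
    (g₁ : 2 ≤ e₁) (h12 : e₁ ≤ e₂) (h23 : e₂ ≤ e₃) (k₃ : 3 ≤ n₃) (h : n₁ + n₂ + n₃ = N + 2) :
    e₁ = 2 ∧ e₂ = 3 ∧ (e₃ = 3 ∧ N = 12 ∨ e₃ = 4 ∧ N = 24 ∨ e₃ = 5 ∧ N = 60) := by
  have a1 : e₁ = 2 := by
    by_contra h0
    have : 3 ≤ e₁ := by omega
    nlinarith
  subst a1
  have a2 : e₂ ≤ 3 := by
    by_contra h0
    have : 4 ≤ e₂ := by omega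
    nlinarith
  have a3 : e₂ = 3 := by
    by_contra h0
    have : e₂ = 2 := by omega
    subst this
    omega
  subst a3
  have a4 : e₃ ≤ 5 := by
    by_contra h0
    have : 6 ≤ e₃ := by omega
    nlinarith
  refine ⟨rfl, rfl, ?_⟩
  interval_cases e₃ <;> omega

/-- two orbits, one of them wild -/
theorem arithp {q d f e m : ℕ} (hq : 2 ≤ q) (hd : d ∣ q - 1) (hf : 1 ≤ f)
    (h1 : m * e = (1 + f * q) * (q * d)) (h2 : m + 2 * (1 + f * q) = 2 + (1 + f * q) * q) :
    (m = 2 ∧ q = 2) ∨ (f = 1 ∧ 3 ≤ q ∧ q ≤ 2 * d + 1) ∨ (q = 3 ∧ f = 3 ∧ d = 2 ∧ e = 5) := by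
  obtain ⟨s, rfl⟩ : ∃ s, q = s + 2 := ⟨q - 2, by omega⟩
  have hm : m = (s + 2) * (1 + f * s) := by nlinarith
  have h3 : (1 + f * s) * e = (1 + f * s + 2 * f) * d := by
    apply Nat.eq_of_mul_eq_mul_left (show 0 < s + 2 by omega)
    rw [hm] at h1
    linarith
  have h4 : 1 + f * s ∣ 2 * d := by
    have c : Nat.Coprime (1 + f * s) f := by simp
    have : 1 + f * s ∣ 2 * d * f := by
      have h5 : 1 + f * s ∣ (1 + f * s) * d + 2 * d * f := ⟨e, by linarith⟩
      exact (Nat.dvd_add_right (Dvd.intro _ rfl)).1 h5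
    exact c.dvd_of_dvd_mul_right this
  have hd' : d ∣ s + 1 := hd
  have hd0 : 0 < d := Nat.pos_of_dvd_of_pos hd' (by omega)
  have hd1 : d ≤ s + 1 := Nat.le_of_dvd (by omega) hd'
  have h6 : 1 + f * s ≤ 2 * d := Nat.le_of_dvd (by omega) h4
  rcases Nat.eq_zero_or_pos s with rfl | hs
  · left
    omega
  right
  have hf3 : f ≤ 3 := by nlinarith
  interval_cases f
  · left
    omega
  · exfalso
    have c : Nat.Coprime (1 + 2 * s) 2 := by simp
    have := Nat.le_of_dvd hd0 (c.dvd_of_dvd_mul_left h4)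
    omega
  · right
    have : s = 1 := by omega
    subst this
    omega

end Vale.Agent.P022K.Dk
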