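import Vale.Agent.P022K.Dk.P1

/-!
P022K/Dk: the orbit equation for a finite subgroup of `GL₂(k)`.
-/

set_option linter.all false

namespace Vale.Agent.P022K.Dk

open MulAction Matrix OnePoint Matrix.GeneralLinearGroup Finset
open scoped Classical Pointwise

variable {k : Type} [Field k]

/-- the order of the projective image -/
noncomputable def pord (G : Subgroup (G2 k)) : ℕ := (Zc k).relIndex G

/-- the stabiliser of a point -/
noncomputable def Sy (G : Subgroup (G2 k)) (y : OnePoint k) : Subgroup (G2 k) := G ⊓ stabilizer (G2 k) y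

theorem mem_Sy {G : Subgroup (G2 k)} {y : OnePoint k} {g : G2 k} :
    g ∈ Sy G y ↔ g ∈ G ∧ g • y = y := Iff.rfl

theorem card_sub {M : Type} [Group M] (K H : Subgroup M) :
    Nat.card (H.subgroupOf K) = Nat.card ↥(K ⊓ H) := by
  rw [← Subgroup.inf_subgroupOf_left]
  exact Nat.card_congr (Subgroup.subgroupOfEquivOfLe inf_le_left).toEquiv

theorem card_rel (K : Subgroup (G2 k)) : Nat.card ↥(K ⊓ Zc k) * pord K = Nat.card K := by
  rw [← card_sub]
  exact Subgroup.card_mul_index _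

theorem card_split {M N : Type} [Group M] [Group N] (K L : Subgroup M) (f : K →* N)
    (h : ∀ x : K, f x = 1 ↔ x.1 ∈ L) : Nat.card K = Nat.card ↥(K ⊓ L) * Nat.card f.range := by
  rw [← card_sub, ← Subgroup.index_ker, show L.subgroupOf K = f.ker from
    Subgroup.ext fun x => (h x).symm, Subgroup.card_mul_index]

theorem Sy_Zc (G : Subgroup (G2 k)) (y : OnePoint k) : Sy G y ⊓ Zc k = G ⊓ Zc k := by
  ext g
  exact ⟨fun h => ⟨h.1.1, h.2⟩, fun h => ⟨⟨h.1, Zc_smul h.2 y⟩, h.2⟩⟩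

theorem mem_orb {G : Subgroup (G2 k)} {x y : OnePoint k} :
    x ∈ orbit G y ↔ ∃ g ∈ G, g • y = x :=
  ⟨fun ⟨g, h⟩ => ⟨g.1, g.2, h⟩, fun ⟨g, hg, h⟩ => ⟨⟨g, hg⟩, h⟩⟩

theorem orb_smul {G : Subgroup (G2 k)} {x y : OnePoint k} {g : G2 k} (hg : g ∈ G)
    (h : x ∈ orbit G y) : g • x ∈ orbit G y := by
  obtain ⟨g', hg', rfl⟩ := mem_orb.1 h
  exact mem_orb.2 ⟨g * g', G.mul_mem hg hg', mul_smul _ _ _⟩

variable (G : Subgroup (G2 k)) [Finite G]

theorem z_pos : 0 < Nat.card ↥(G ⊓ Zc k) := by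
  haveI : Finite ↥(G ⊓ Zc k) := Finite.Set.subset (G : Set (G2 k)) fun x h => h.1
  exact Nat.card_pos

theorem pord_pos : 0 < pord G := by
  have h := card_rel G
  have h' : 0 < Nat.card G := Nat.card_pos
  rw [← h] at h'
  exact Nat.pos_of_mul_pos_left h'

theorem orb_mul (y : OnePoint k) : (orbit G y).ncard * pord (Sy G y) = pord G := by
  letI := Fintype.ofFinite G
  apply Nat.eq_of_mul_eq_mul_left (z_pos G)
  rw [card_rel, ← orbit_mul (G := G) y, mul_left_comm, ← Sy_Zc G y, card_rel]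
  exact congrArg _ (card_sub G (stabilizer (G2 k) y)).symm

theorem orb_fin (y : OnePoint k) : (orbit G y).Finite := Set.finite_range _

theorem orb_pos (y : OnePoint k) : 0 < (orbit G y).ncard :=
  (Set.ncard_pos (orb_fin G y)).2 ⟨y, mem_orbit_self y⟩

theorem cnt [Fintype G] (H : Subgroup (G2 k)) :
    ∑ g : G, (if g.1 ∈ H then 1 else 0) = Nat.card ↥(G ⊓ H) := by
  rw [← card_sub, Nat.card_eq_fintype_card, Fintype.card_subtype, card_filter]
  rfl

/-- the weights -/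
noncomputable def wG (g : G) : ℕ := w0 g.1

theorem wt_tame [Fintype G] {y : OnePoint k} (h : ∀ g ∈ G, g • y = y → ¬ g.IsParabolic) :
    wt (wG G) y + Nat.card ↥(G ⊓ Zc k) = Nat.card ↥(G ⊓ Zc k) * pord (Sy G y) := by
  conv_rhs => rw [← Sy_Zc G y, card_rel, Sy, ← cnt]
  rw [← cnt, wt, ← sum_add_distrib]
  refine sum_congr rfl fun g _ => ?_
  by_cases h1 : g.1 • y = y
  · rw [if_pos (show g • y = y from h1), if_pos (show g.1 ∈ stabilizer (G2 k) y from h1), wG, w0,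
      if_neg (h _ g.2 h1)]
    split_ifs <;> rfl
  · rw [if_neg (show ¬ g • y = y from h1), if_neg (show g.1 ∉ stabilizer (G2 k) y from h1),
      if_neg fun h2 => h1 (Zc_smul h2 y)]

theorem wt_wild [Fintype G] : wt (wG G) (∞ : OnePoint k) + 2 * Nat.card ↥(G ⊓ Zc k) =
    Nat.card ↥(G ⊓ Bor k) + Nat.card ↥(G ⊓ Uni k) := by
  rw [← cnt, ← cnt, ← cnt, wt, mul_sum, ← sum_add_distrib, ← sum_add_distrib]
  refine sum_congr rfl fun g _ => ?_
  by_cases h1 : g.1 1 0 = 0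
  · rw [if_pos (show g • (∞ : OnePoint k) = ∞ from smul_infty_eq_self_iff.2 h1),
      if_pos (show g.1 ∈ Bor k from h1), wG, w0]
    by_cases h2 : g.1 ∈ Zc k
    · simp [h2, mem_Uni', h1]
    · by_cases h3 : g.1.IsParabolic <;> simp [h2, h3, mem_Uni', h1]
  · rw [if_neg (show ¬ g • (∞ : OnePoint k) = ∞ from fun h => h1 (smul_infty_eq_self_iff.1 h)),
      if_neg (show g.1 ∉ Bor k from h1), if_neg fun h2 => h1 (mem_Zc.1 h2).2.1,
      if_neg fun h2 => h1 (mem_Uni.1 h2).1]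
    rfl

/-- the orbit equation -/
theorem klein [IsAlgClosed k] [Fintype G] :
    ∃ R : Finset (OnePoint k), (∀ y ∈ R, 2 ≤ pord (Sy G y)) ∧
      (∀ x, ∀ g ∈ G, g ∉ Zc k → g • x = x → ∃ y ∈ R, x ∈ orbit G y) ∧
      (∀ x ∈ R, ∀ y ∈ R, x ∈ orbit G y → x = y) ∧
      Nat.card ↥(G ⊓ Zc k) * (2 * pord G) = Nat.card ↥(G ⊓ Zc k) * 2 +
        ∑ y ∈ R, (orbit G y).ncard * wt (wG G) y := by
  obtain ⟨R, h1, h2, h3, h4⟩ := count (X := OnePoint k) (wG G) (fun g h => w0_cj _ _)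
    fun g hg => (w0_fix (w0_ne.1 hg)).1
  refine ⟨R, fun y hy => ?_, fun x g hg hz hx => h2 x ⟨g, hg⟩ (w0_ne.2 hz) hx, h3, ?_⟩
  · obtain ⟨g, hg, e⟩ := h1 y hy
    haveI : Finite (Sy G y) := Finite.Set.subset (G : Set (G2 k)) fun x h => h.1
    have h5 := pord_pos (Sy G y)
    have h6 : pord (Sy G y) ≠ 1 := fun h => w0_ne.1 hg (Subgroup.relIndex_eq_one.1 h ⟨g.2, e⟩)
    omega
  · rw [← h4, mul_left_comm, card_rel, Nat.card_eq_fintype_card (α := G), ← cnt, sum_mul,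
      ← sum_add_distrib, ← card_univ, card_eq_sum_ones, mul_sum]
    refine sum_congr rfl fun g _ => ?_
    by_cases hz : g.1 ∈ Zc k
    · simp [hz, wG, w0]
    · rw [if_neg hz, zero_mul, zero_add]
      exact (w0_fix hz).2.symm

/-- the contribution of the tame orbits -/
theorem tame_sum [Fintype G] (R : Finset (OnePoint k)) (h2 : ∀ y ∈ R, 2 ≤ pord (Sy G y))
    (h : ∀ y ∈ R, ∀ g ∈ G, g • y = y → ¬ g.IsParabolic) :
    ∑ y ∈ R, (orbit G y).ncard * wt (wG G) y +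
      Nat.card ↥(G ⊓ Zc k) * ∑ y ∈ R, (orbit G y).ncard =
      Nat.card ↥(G ⊓ Zc k) * (R.card * pord G) ∧
    2 * ∑ y ∈ R, (orbit G y).ncard ≤ R.card * pord G := by
  constructor
  · rw [mul_sum, ← sum_add_distrib, card_eq_sum_ones, sum_mul, mul_sum]
    refine sum_congr rfl fun y hy => ?_
    rw [one_mul, ← orb_mul G y, mul_left_comm, ← wt_tame G (h y hy)]
    ring
  · rw [mul_sum, card_eq_sum_ones, sum_mul]
    refine sum_le_sum fun y hy => ?_
    rw [one_mul, ← orb_mul G y, mul_comm]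
    exact Nat.mul_le_mul_left _ (h2 y hy)

variable {G}

theorem par_char [IsAlgClosed k] {g : G2 k} (hg : g ∈ G) (hp : g.IsParabolic) :
    (ringChar k).Prime := by
  have h1 : 0 < orderOf (⟨g, hg⟩ : G) := orderOf_pos _
  have h2 : g ^ orderOf (⟨g, hg⟩ : G) = 1 := congrArg Subtype.val (pow_orderOf_eq_one (⟨g, hg⟩ : G))
  have h3 := (par_pow hp _).1 (h2 ▸ (Zc k).one_mem)
  refine (CharP.char_is_prime_or_zero k _).resolve_right fun h => ?_
  rw [ringChar.spec, h, zero_dvd_iff] at h3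
  omega

theorem orb_mod [IsAlgClosed k] {g : G2 k} (hg : g ∈ G) (hp : g.IsParabolic) {x : OnePoint k}
    (hx : g • x = x) (y : OnePoint k) :
    (orbit G y).ncard ≡ (if x ∈ orbit G y then 1 else 0) [MOD ringChar k] := by
  haveI := Fact.mk (par_char hg hp)
  haveI : Finite (orbit G y) := orb_fin G y
  letI := Fintype.ofFinite (orbit G y)
  have h1 : (toEndHom (M := G) (α := orbit G y) ⟨g, hg⟩) ^ ringChar k ^ 1 = 1 := by
    rw [← map_pow, pow_one]
    funext s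
    exact Subtype.ext (Zc_smul ((par_pow hp _).2 (ringChar.Nat.cast_ringChar)) s.1)
  have h2 := Equiv.Perm.card_fixedPoints_modEq h1
  simp only [← Nat.card_eq_fintype_card, Nat.card_coe_set_eq] at h2
  have h3 : ∀ s : orbit G y, s ∈ Function.fixedPoints (toEndHom (M := G) (α := orbit G y) ⟨g, hg⟩)
      ↔ s.1 = x := fun s => by
    rw [← Set.mem_singleton_iff, ← par_fix hp hx]
    exact Subtype.ext_iff
  convert h2
  split_ifs with h
  · rw [Set.eq_singleton_iff_unique_mem.2 ⟨(h3 ⟨x, h⟩).2 rfl, fun s hs => Subtype.ext ((h3 s).1 hs)⟩,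
      Set.ncard_singleton]
  · rw [Set.eq_empty_of_forall_notMem fun s hs => h ((h3 s).1 hs ▸ s.2), Set.ncard_empty]

/-- the fixed points of the parabolic elements form one orbit -/
theorem par_orb [IsAlgClosed k] {g h : G2 k} (hg : g ∈ G) (hh : h ∈ G) (hp : g.IsParabolic)
    (hq : h.IsParabolic) {x y : OnePoint k} (hx : g • x = x) (hy : h • y = y) :
    x ∈ orbit G y := by
  by_contra hn
  have h1 := orb_mod hg hp hx y
  have h2 := orb_mod hh hq hy y
  rw [if_neg hn] at h1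
  rw [if_pos (mem_orbit_self y)] at h2
  exact (par_char hg hp).one_lt.ne' (Nat.dvd_one.1 (Nat.modEq_zero_iff_dvd.1 (h2.symm.trans h1)))

variable (G)

/-- the group of translations -/
def Gam : AddSubgroup k where
  carrier := {γ | ∃ g ∈ G, g ∈ Uni k ∧ g 0 1 / g 1 1 = γ}
  zero_mem' := ⟨1, G.one_mem, (Uni k).one_mem, by simp⟩
  add_mem' := by
    rintro _ _ ⟨a, ha, ha', rfl⟩ ⟨b, hb, hb', rfl⟩
    exact ⟨a * b, G.mul_mem ha hb, (Uni k).mul_mem ha' hb',
      congrArg Multiplicative.toAdd (bet.map_mul ⟨a, ha'⟩ ⟨b, hb'⟩)⟩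
  neg_mem' := by
    rintro _ ⟨a, ha, ha', rfl⟩
    exact ⟨a⁻¹, G.inv_mem ha, (Uni k).inv_mem ha',
      congrArg Multiplicative.toAdd (map_inv (bet (k := k)) ⟨a, ha'⟩)⟩

/-- the group of multipliers -/
noncomputable def Mul : Subgroup kˣ :=
  (alf.comp (Subgroup.inclusion (inf_le_right : G ⊓ Bor k ≤ Bor k))).range

omit [Finite G] in
theorem mem_Mul {a : kˣ} : a ∈ Mul G ↔ ∃ g ∈ G, g 1 0 = 0 ∧ g 0 0 / g 1 1 = a :=
  ⟨fun ⟨g, h⟩ => ⟨g.1, g.2.1, g.2.2, congrArg Units.val h⟩,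
    fun ⟨g, h1, h2, h⟩ => ⟨⟨g, h1, h2⟩, Units.ext h⟩⟩

omit [Finite G] in
theorem card_Uni : Nat.card ↥(G ⊓ Uni k) = Nat.card ↥(G ⊓ Zc k) * Nat.card (Gam G) := by
  rw [card_split (G ⊓ Uni k) (Zc k)
    (bet.comp (Subgroup.inclusion (inf_le_right : G ⊓ Uni k ≤ Uni k)))]
  · congr 1
    · rw [inf_assoc, inf_eq_right.2 (show Zc k ≤ Uni k from fun g hg => mem_Uni.2 (mem_Zc.1 hg).2)]
    · exact Nat.card_congr (Equiv.subtypeEquiv Multiplicative.toAdd fun γ =>
        ⟨fun ⟨g, h⟩ => ⟨g.1, g.2.1, g.2.2, congrArg Multiplicative.toAdd h⟩,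
          fun ⟨g, h1, h2, h⟩ => ⟨⟨g, h1, h2⟩, congrArg Multiplicative.ofAdd h⟩⟩)
  · intro x
    rw [mem_Zc]
    refine ⟨fun h => ⟨?_, x.2.2⟩, fun h => ?_⟩
    · exact (div_eq_zero_iff.1 (congrArg Multiplicative.toAdd h)).resolve_right (tri_ne x.2.2.1).2
    · exact congrArg Multiplicative.ofAdd (div_eq_zero_iff.2 (.inl h.1))

omit [Finite G] in
theorem card_Bor : Nat.card ↥(G ⊓ Bor k) = Nat.card ↥(G ⊓ Uni k) * Nat.card (Mul G) := by
  rw [card_split (G ⊓ Bor k) (Uni k)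
    (alf.comp (Subgroup.inclusion (inf_le_right : G ⊓ Bor k ≤ Bor k)))]
  · congr 1
    rw [inf_assoc, inf_eq_right.2 (show Uni k ≤ Bor k from fun g hg => hg.1)]
  · intro x
    exact ⟨fun h => ⟨x.2.2, (div_eq_one_iff_eq (tri_ne x.2.2).2).1 (congrArg Units.val h)⟩,
      fun h => Units.ext ((div_eq_one_iff_eq (tri_ne x.2.2).2).2 h.2)⟩

theorem pord_inf : pord (Sy G ∞) = Nat.card (Gam G) * Nat.card (Mul G) := by
  apply Nat.eq_of_mul_eq_mul_left (z_pos G)
  rw [← mul_assoc, ← card_Uni, ← card_Bor, ← Sy_Zc G ∞, card_rel, Sy, Bor_eq]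

instance : Finite (Gam G) := by
  refine Finite.Set.subset (Set.range fun g : G => g.1 0 1 / g.1 1 1) ?_
  rintro _ ⟨g, hg, -, rfl⟩
  exact ⟨⟨g, hg⟩, rfl⟩

instance : Finite (Mul G) := by
  haveI : Finite ↥(G ⊓ Bor k) := Finite.Set.subset (G : Set (G2 k)) fun x h => h.1
  exact Set.finite_range _

omit [Finite G] in
theorem Mul_Gam {a : kˣ} (ha : a ∈ Mul G) {γ : k} (hγ : γ ∈ Gam G) : (a : k) * γ ∈ Gam G := by
  obtain ⟨b, hb, h1, e⟩ := (mem_Mul G).1 ha
  obtain ⟨u, hu, h2, rfl⟩ := hγ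
  obtain ⟨i1, i2, i3, i4⟩ := inv_ap b
  have n1 := tri_ne h1
  have n2 := tri_ne h2.1
  refine ⟨b * u * b⁻¹, G.mul_mem (G.mul_mem hb hu) (G.inv_mem hb), ⟨?_, ?_⟩, ?_⟩ <;>
    simp only [mul_ap, i1, i2, i3, i4, h1, h2.1, h2.2, ← e]
  · simp
  · have := n1.1; have := n1.2
    field_simp
    ring
  · have := n1.1; have := n1.2; have := n2.2
    simp only [mul_zero, zero_mul, add_zero, zero_add, sub_zero]
    field_simp
    ring

theorem Mul_dvd : Nat.card (Mul G) ∣ Nat.card (Gam G) - 1 := by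
  letI := Fintype.ofFinite (Mul G)
  have h := free_dvd (G := Mul G) (X := k) ((Gam G : Set k) \ {0})
    (Set.Finite.subset (s := (Gam G : Set k)) (inferInstanceAs (Finite (Gam G))) Set.diff_subset)
    (fun a x hx => ⟨Mul_Gam G a.2 hx.1, mul_ne_zero a.1.ne_zero hx.2⟩)
    fun a x hx e => Subtype.ext (Units.ext ((mul_eq_right₀ hx.2).1 e))
  rwa [Set.ncard_diff_singleton_of_mem (Gam G).zero_mem] at h

/-- the finite part of the orbit of infinity -/
def Fin0 : Set k := {z | (z : OnePoint k) ∈ orbit G (∞ : OnePoint k)}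

omit [Finite G] in
theorem Fin0_add {γ z : k} (hγ : γ ∈ Gam G) (hz : z ∈ Fin0 G) : γ + z ∈ Fin0 G := by
  obtain ⟨u, hu, h2, rfl⟩ := hγ
  have h := orb_smul hu hz
  rwa [smul_coe h2.1, h2.2, add_div, mul_div_cancel_left₀ _ (tri_ne h2.1).2, add_comm] at h

theorem Fin0_fin : (Fin0 G).Finite := (orb_fin G ∞).preimage coe_injective.injOn

theorem Fin0_card : (orbit G (∞ : OnePoint k)).ncard = 1 + (Fin0 G).ncard := by
  have e : orbit G (∞ : OnePoint k) = insert ∞ ((↑) '' Fin0 G) := by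
    ext x
    cases x with
    | infty => simp
    | coe z => simp [Fin0]
  rw [e, Set.ncard_insert_of_notMem (by simp) ((Fin0_fin G).image _),
    Set.ncard_image_of_injective _ OnePoint.coe_injective, add_comm]

theorem Fin0_dvd : Nat.card (Gam G) ∣ (Fin0 G).ncard := by
  letI := Fintype.ofFinite (Multiplicative (Gam G))
  exact free_dvd (G := Multiplicative (Gam G)) (X := k) (Fin0 G) (Fin0_fin G)
    (fun a x hx => Fin0_add G (Multiplicative.toAdd a).2 hx)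
    fun a x hx e => congrArg Multiplicative.ofAdd (Subtype.ext (add_eq_right.1 e))

end Vale.Agent.P022K.Dk
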