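import Vale.Agent.P022K.Dk.Std

/-!
P022K/Dk: **Dickson's theorem** on the finite subgroups of `GL₂(k)`, `k` algebraically closed of
any characteristic.
-/

set_option linter.all false

namespace Vale.Agent.P022K.Dk

open MulAction Matrix OnePoint Matrix.GeneralLinearGroup Finset
open scoped Classical Pointwise

variable {k : Type} [Field k]

/-- there is a stable line -/
def Red (G : Subgroup (G2 k)) : Prop :=
  ∃ v : Fin 2 → k, v ≠ 0 ∧ ∀ g ∈ G, ∃ a : k, (g : Matrix (Fin 2) (Fin 2) k) *ᵥ v = a • v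

/-- diagonal or antidiagonal -/
def Mon (G : Subgroup (G2 k)) : Prop :=
  ∀ g ∈ G, (g 0 1 = 0 ∧ g 1 0 = 0) ∨ (g 0 0 = 0 ∧ g 1 1 = 0)

/-- monomial in some basis -/
def Dih (G : Subgroup (G2 k)) : Prop := ∃ P, Mon (cj P G)

/-- the projective orders of the elements are `1, 2, 3` or divide `e` -/
def Ord (G : Subgroup (G2 k)) (e : ℕ) : Prop :=
  ∀ g ∈ G, g ^ 2 ∈ Zc k ∨ g ^ 3 ∈ Zc k ∨ g ^ e ∈ Zc k

/-- tetrahedral, octahedral, icosahedral -/
def Small (G : Subgroup (G2 k)) : Prop :=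
  (pord G = 12 ∧ Ord G 3 ∨ pord G = 24 ∧ Ord G 4 ∨ pord G = 60 ∧ Ord G 5) ∧
    ((∀ g ∈ G, ¬ g.IsParabolic) ∨ (3 : k) = 0 ∧ pord G = 60)

/-- `SL₂(F) ≤ P⁻¹ G P ≤ k^× GL₂(F)` with `F` finite, `#F ≥ 3` -/
def Big (G : Subgroup (G2 k)) : Prop :=
  ∃ (F : Subfield k) (P : G2 k), 3 ≤ Nat.card F ∧ Std F (cj P G)

theorem red_iff {G : Subgroup (G2 k)} : Red G ↔ ∃ P, cj P G ≤ Bor k := by
  constructor
  · rintro ⟨v, hv, h⟩
    have key : ∀ P : G2 k, P 0 0 = v 0 → P 1 0 = v 1 → cj P G ≤ Bor k := fun P h0 h1 m hm => by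
      obtain ⟨a, ha⟩ := h _ (mem_cj.1 hm)
      have e : P * m * P⁻¹ * P = P * m := inv_mul_cancel_right _ _
      have e0 := congrArg (fun x : G2 k => x 0 0) e
      have e1 := congrArg (fun x : G2 k => x 1 0) e
      have a0 := congrFun ha 0
      have a1 := congrFun ha 1
      simp only [mulVec_fin_two, cons_val_zero, cons_val_one, Pi.smul_apply, smul_eq_mul] at a0 a1
      rw [mul_ap, mul_ap P m, h0, h1] at e0 e1
      refine (mul_eq_zero.1 ?_).resolve_left (det_ne P)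
      rw [h0, h1]
      linear_combination v 0 * a1 - v 1 * a0 - v 0 * e1 + v 1 * e0
    by_cases h0 : v 0 = 0
    · have h1 : v 1 ≠ 0 := fun h1 => hv (by ext i; fin_cases i <;> simp [h0, h1])
      exact ⟨mk2 (v 0) 1 (v 1) 0 (by simpa using h1), key _ rfl rfl⟩
    · exact ⟨mk2 (v 0) 0 (v 1) 1 (by simpa using h0), key _ rfl rfl⟩
  · rintro ⟨P, h⟩
    refine ⟨![P 0 0, P 1 0], fun e => det_ne P ?_, fun g hg => ⟨(P⁻¹ * g * P) 0 0, ?_⟩⟩
    · rw [show P 0 0 = 0 from congrFun e 0, show P 1 0 = 0 from congrFun e 1]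
      simp
    · have h1 : (P⁻¹ * g * P) 1 0 = 0 := h (mem_cj'.2 hg)
      have e : g * P = P * (P⁻¹ * g * P) := by group
      have e0 := congrArg (fun x : G2 k => x 0 0) e
      have e1 := congrArg (fun x : G2 k => x 1 0) e
      rw [mul_ap, mul_ap P, h1] at e0 e1
      ext i
      fin_cases i
      · simp only [mulVec_fin_two, Fin.zero_eta, cons_val_zero, cons_val_one, Pi.smul_apply,
          smul_eq_mul]
        linear_combination e0
      · simp only [mulVec_fin_two, Fin.mk_one, cons_val_zero, cons_val_one, Pi.smul_apply,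
          smul_eq_mul]
        linear_combination e1

theorem red_iff' {G : Subgroup (G2 k)} : Red G ↔ ∃ x : OnePoint k, ∀ g ∈ G, g • x = x := by
  rw [red_iff]
  constructor
  · rintro ⟨P, h⟩
    exact ⟨P • ∞, fun g hg => tri_cj.2 (h (mem_cj'.2 hg))⟩
  · rintro ⟨x, h⟩
    obtain ⟨P, rfl⟩ := trans1 x
    refine ⟨P, fun m hm => ?_⟩
    have := tri_cj.1 (h _ (mem_cj.1 hm))
    rwa [show P⁻¹ * (P * m * P⁻¹) * P = m by group] at this

theorem red_cj {G : Subgroup (G2 k)} (P : G2 k) : Red (cj P G) ↔ Red G := by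
  simp only [red_iff, cj_cj]
  exact ⟨fun ⟨_, h⟩ => ⟨_, h⟩, fun ⟨Q, h⟩ => ⟨P⁻¹ * Q, by rwa [mul_inv_cancel_left]⟩⟩

theorem Dih.of_cj {G : Subgroup (G2 k)} {P : G2 k} (h : Dih (cj P G)) : Dih G := by
  obtain ⟨Q, h⟩ := h
  exact ⟨P * Q, cj_cj P Q G ▸ h⟩

theorem Big.of_cj {G : Subgroup (G2 k)} {P : G2 k} (h : Big (cj P G)) : Big G := by
  obtain ⟨F, Q, h⟩ := h
  exact ⟨F, P * Q, cj_cj P Q G ▸ h⟩

theorem pow_cj (P g : G2 k) (n : ℕ) : (P⁻¹ * g * P) ^ n ∈ Zc k ↔ g ^ n ∈ Zc k := by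
  have e : (P⁻¹ * g * P) ^ n = P⁻¹ * g ^ n * P⁻¹⁻¹ := by rw [← conj_pow, inv_inv]
  rw [e, Zc_cj]

theorem Ord.of_cj {G : Subgroup (G2 k)} {P : G2 k} {e : ℕ} (h : Ord (cj P G) e) : Ord G e :=
  fun g hg => by simpa only [pow_cj] using h _ (mem_cj'.2 hg)

theorem Small.of_cj {G : Subgroup (G2 k)} {P : G2 k} (h : Small (cj P G)) : Small G := by
  rw [Small, pord_cj] at h
  exact ⟨h.1.imp (And.imp_right Ord.of_cj) (Or.imp (And.imp_right Ord.of_cj)
    (And.imp_right Ord.of_cj)), h.2.imp_left fun h g hg hp =>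
      h _ (mem_cj'.2 hg) ((isParabolic_conj_iff' P g).2 hp)⟩

theorem red_of_orb {G : Subgroup (G2 k)} {y : OnePoint k} (h : (orbit G y).ncard = 1) : Red G := by
  obtain ⟨x, e⟩ := Set.ncard_eq_one.1 h
  have h1 : ∀ z ∈ orbit G y, z = x := fun z hz => by rwa [e] at hz
  exact red_iff'.2 ⟨y, fun g hg =>
    (h1 _ (orb_smul hg (mem_orbit_self y))).trans (h1 _ (mem_orbit_self y)).symm⟩

theorem smul_zero_iff {g : G2 k} : g • ((0 : k) : OnePoint k) = (0 : k) ↔ g 0 1 = 0 := by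
  rw [smul_some_eq_ite]
  have := det_ne g
  split_ifs with h
  · exact ⟨fun e => (infty_ne_coe _ e).elim, fun e => (this (by simp_all)).elim⟩
  · simp_all

theorem smul_zero_inf {g : G2 k} : g • ((0 : k) : OnePoint k) = ∞ ↔ g 1 1 = 0 := by
  rw [smul_some_eq_ite]
  simp

theorem smul_inf_zero {g : G2 k} : g • (∞ : OnePoint k) = (0 : k) ↔ g 0 0 = 0 := by
  rw [smul_infty_eq_ite]
  have := det_ne g
  split_ifs with h
  · exact ⟨fun e => (infty_ne_coe _ e).elim, fun e => (this (by simp_all)).elim⟩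
  · simp_all

theorem dih_of_pair {G : Subgroup (G2 k)} {x y : OnePoint k} (hne : x ≠ y)
    (h : ∀ g ∈ G, ∀ z ∈ ({x, y} : Set (OnePoint k)), g • z ∈ ({x, y} : Set (OnePoint k))) :
    Dih G := by
  obtain ⟨P, rfl, rfl⟩ := trans2 hne
  refine ⟨P, fun m hm => ?_⟩
  have h1 := h _ (mem_cj.1 hm) _ (.inl rfl)
  have h2 := h _ (mem_cj.1 hm) _ (.inr rfl)
  simp only [mul_smul, inv_smul_smul, Set.mem_insert_iff, Set.mem_singleton_iff,
    smul_left_cancel_iff] at h1 h2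
  rw [smul_infty_eq_self_iff, smul_inf_zero] at h1
  rw [smul_zero_inf, smul_zero_iff] at h2
  have := det_ne m
  rcases h1 with h1 | h1 <;> rcases h2 with h2 | h2 <;> simp_all

theorem dih_of_orb {G : Subgroup (G2 k)} {y : OnePoint k} (h : (orbit G y).ncard = 2) : Dih G := by
  obtain ⟨x, x', hne, e⟩ := Set.ncard_eq_two.1 h
  refine dih_of_pair hne fun g hg z hz => ?_
  rw [← e] at hz ⊢
  exact orb_smul hg hz

theorem pow_Sy {G : Subgroup (G2 k)} {x y : OnePoint k} (h : x ∈ orbit G y) {g : G2 k}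
    (hg : g ∈ G) (hx : g • x = x) : g ^ pord (Sy G y) ∈ Zc k := by
  obtain ⟨P, hP, rfl⟩ := mem_orb.1 h
  rw [← pow_cj P]
  exact Subgroup.pow_relIndex_mem _ (mem_Sy.2 ⟨G.mul_mem (G.mul_mem (G.inv_mem hP) hg) hP,
    by rw [mul_smul, mul_smul, hx, inv_smul_smul]⟩)

/-- trace zero -/
theorem sq_Zc {g : G2 k} (h : g 0 0 + g 1 1 = 0) : g ^ 2 ∈ Zc k := by
  rw [mem_Zc, pow_two]
  simp only [mul_ap]
  exact ⟨by linear_combination g 0 1 * h, by linear_combination g 1 0 * h,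
    by linear_combination (g 0 0 - g 1 1) * h⟩

variable [IsAlgClosed k] (G : Subgroup (G2 k)) [Finite G]

theorem tame3 {a b c : OnePoint k} (h1 : 2 ≤ pord (Sy G a)) (h2 : pord (Sy G a) ≤ pord (Sy G b))
    (h3 : pord (Sy G b) ≤ pord (Sy G c))
    (hc : ∀ x, ∀ g ∈ G, g ∉ Zc k → g • x = x → x ∈ orbit G a ∨ x ∈ orbit G b ∨ x ∈ orbit G c)
    (h : (orbit G a).ncard + (orbit G b).ncard + (orbit G c).ncard = pord G + 2)
    (hp : ∀ g ∈ G, ¬ g.IsParabolic) : Red G ∨ Dih G ∨ Small G := by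
  have p := orb_pos G c
  by_cases c1 : (orbit G c).ncard = 1
  · exact .inl (red_of_orb c1)
  by_cases c2 : (orbit G c).ncard = 2
  · exact .inr (.inl (dih_of_orb c2))
  obtain ⟨e1, e2, e3⟩ := arith3 (orb_mul G a) (orb_mul G b) (orb_mul G c) h1 h2 h3 (by omega) h
  have ho : Ord G (pord (Sy G c)) := fun g hg => by
    by_cases hz : g ∈ Zc k
    · exact .inl ((Zc k).pow_mem hz 2)
    obtain ⟨x, hx⟩ := exists_fix g
    exact (hc x g hg hz hx).imp (fun h => by simpa only [e1] using pow_Sy h hg hx)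
      (Or.imp (fun h => by simpa only [e2] using pow_Sy h hg hx) fun h => pow_Sy h hg hx)
  refine .inr (.inr ⟨?_, .inl hp⟩)
  rcases e3 with ⟨e, h⟩ | ⟨e, h⟩ | ⟨e, h⟩ <;> rw [e] at ho <;> simp [h, ho]

/-- no parabolic element -/
theorem tame (hp : ∀ g ∈ G, ¬ g.IsParabolic) : Red G ∨ Dih G ∨ Small G := by
  letI := Fintype.ofFinite G
  obtain ⟨R, h1, h2, -, h4⟩ := klein G
  obtain ⟨h5, h6⟩ := tame_sum G R h1 fun _ _ g hg _ => hp g hg
  have h7 : 2 * pord G + ∑ y ∈ R, (orbit G y).ncard = 2 + R.card * pord G := by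
    apply Nat.eq_of_mul_eq_mul_left (z_pos G)
    rw [mul_add, mul_add, h4, ← h5, add_assoc]
  have hN := pord_pos G
  have h8 : R.card ≤ 3 := by
    by_contra h
    have : 4 * pord G ≤ R.card * pord G := Nat.mul_le_mul_right _ (by omega)
    omega
  have h9 : R.card = 0 ∨ R.card = 1 ∨ R.card = 2 ∨ R.card = 3 := by omega
  rcases h9 with h | h | h | h
  · rw [card_eq_zero.1 h] at h2
    refine .inl (red_iff'.2 ⟨∞, fun g hg => Zc_smul (by_contra fun hz => ?_) _⟩)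
    obtain ⟨x, hx⟩ := exists_fix g
    simpa using h2 x g hg hz hx
  · obtain ⟨a, rfl⟩ := card_eq_one.1 h
    have := orb_pos G a
    rw [sum_singleton, card_singleton] at h6 h7
    omega
  · obtain ⟨a, b, hab, rfl⟩ := card_eq_two.1 h
    have := orb_pos G a
    have := orb_pos G b
    rw [sum_pair hab, h] at h7
    exact .inl (red_of_orb (y := a) (by omega))
  · obtain ⟨a, b, c, hab, hac, hbc, rfl⟩ := card_eq_three.1 h
    rw [sum_insert (by simp [hab, hac]), sum_pair hbc, h] at h7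
    simp only [mem_insert, mem_singleton, forall_eq_or_imp, forall_eq, exists_eq_or_imp,
      exists_eq_left] at h1 h2
    obtain ⟨ha, hb, hc⟩ := h1
    rcases le_total (pord (Sy G a)) (pord (Sy G b)) with q1 | q1 <;>
      rcases le_total (pord (Sy G b)) (pord (Sy G c)) with q2 | q2 <;>
      rcases le_total (pord (Sy G a)) (pord (Sy G c)) with q3 | q3
    · exact tame3 G ha q1 q2 h2 (by omega) hp
    · exact tame3 G ha q1 q2 h2 (by omega) hp
    · exact tame3 G ha q3 q2 (fun x g i j l => by have := h2 x g i j l; tauto) (by omega) hp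
    · exact tame3 G hc q3 q1 (fun x g i j l => by have := h2 x g i j l; tauto) (by omega) hp
    · exact tame3 G hb q1 q3 (fun x g i j l => by have := h2 x g i j l; tauto) (by omega) hp
    · exact tame3 G hb q2 q3 (fun x g i j l => by have := h2 x g i j l; tauto) (by omega) hp
    · exact tame3 G hc q2 q1 (fun x g i j l => by have := h2 x g i j l; tauto) (by omega) hp
    · exact tame3 G hc q2 q1 (fun x g i j l => by have := h2 x g i j l; tauto) (by omega) hp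

omit [IsAlgClosed k] in
theorem Gam_char (h : 2 ≤ Nat.card (Gam G)) : ((Nat.card (Gam G) : ℕ) : k) = 0 := by
  haveI : Nontrivial (Gam G) := Finite.one_lt_card_iff_nontrivial.1 h
  obtain ⟨s, h0⟩ := exists_ne (0 : Gam G)
  have e := congrArg Subtype.val (card_nsmul_eq_zero' (x := s))
  rw [AddSubgroup.coe_nsmul, nsmul_eq_mul] at e
  exact (mul_eq_zero.1 e).resolve_right fun e => h0 (Subtype.ext e)

/-- a parabolic element fixes infinity: the numerical alternatives -/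
theorem wild {g₀ : G2 k} (hg : g₀ ∈ G) (hp : g₀.IsParabolic) (h0 : g₀ 1 0 = 0) :
    G ≤ Bor k ∨ (Dih G ∧ (2 : k) = 0) ∨
      ((3 : k) = 0 ∧ pord G = 60 ∧ Ord G 5 ∧ Nat.card (Gam G) = 3 ∧ Nat.card (Mul G) = 2 ∧
        (Fin0 G).ncard = 9) ∨
      (3 ≤ Nat.card (Gam G) ∧ (Fin0 G).ncard = Nat.card (Gam G) ∧ ∃ P : G2 k, P 1 0 = 0 ∧
        Nat.card (Fld (Gam G)) = Nat.card (Gam G) ∧ Std (Fld (Gam G)) (cj P G)) := by
  letI := Fintype.ofFinite G
  obtain ⟨R, h1, h2, h3, h4⟩ := klein G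
  have hi := smul_infty_eq_self_iff.2 h0
  obtain ⟨y₀, hy₀, hy⟩ := h2 ∞ g₀ hg (par_not_Zc hp) hi
  have eo : orbit G y₀ = orbit G (∞ : OnePoint k) := (orbit_eq_iff.2 hy).symm
  have ew : wt (wG G) y₀ = wt (wG G) (∞ : OnePoint k) := by
    obtain ⟨g, e⟩ := hy
    rw [← e]
    exact (wt_smul (w := wG G) (fun g h => w0_cj _ _) g y₀).symm
  obtain ⟨h5, h6⟩ := tame_sum G (R.erase y₀) (fun y hy => h1 y (mem_of_mem_erase hy))
    fun y hy g hg' hx hp' => (mem_erase.1 hy).1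
      (h3 y (mem_of_mem_erase hy) y₀ hy₀ (eo ▸ par_orb hg' hg hp' hp hx hi))
  rw [← add_sum_erase _ _ hy₀, eo, ew] at h4
  have h7 := wt_wild G
  rw [card_Bor, card_Uni] at h7
  have h8 := orb_mul G ∞
  rw [pord_inf] at h8
  have hq : 2 ≤ Nat.card (Gam G) := by
    refine Finite.one_lt_card_iff_nontrivial.2 ⟨⟨⟨_, g₀, hg, mem_Uni'.2 ⟨h0, .inr hp⟩, rfl⟩, 0,
      fun e => ?_⟩⟩
    exact div_ne_zero ((par_tri h0).1 hp).2 (tri_ne h0).2 (congrArg Subtype.val e)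
  obtain ⟨f, hf⟩ := Fin0_dvd G
  have hn := Fin0_card G
  rw [hf, mul_comm] at hn
  have hd := Mul_dvd G
  have hd0 : 0 < Nat.card (Mul G) := Nat.card_pos
  have hch := Gam_char G hq
  have h9 : 2 * pord G + 2 * (orbit G (∞ : OnePoint k)).ncard + ∑ y ∈ R.erase y₀, (orbit G y).ncard =
      2 + pord G + (orbit G (∞ : OnePoint k)).ncard * Nat.card (Gam G) +
        (R.erase y₀).card * pord G := by
    apply Nat.eq_of_mul_eq_mul_left (z_pos G)
    linear_combination h4 + h5 + (orbit G (∞ : OnePoint k)).ncard * h7 +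
      Nat.card ↥(G ⊓ Zc k) * h8
  have hnq : (orbit G (∞ : OnePoint k)).ncard * 2 ≤
      (orbit G (∞ : OnePoint k)).ncard * Nat.card (Gam G) := Nat.mul_le_mul_left _ hq
  rcases Nat.eq_zero_or_pos f with rfl | hf0
  · left
    obtain ⟨x, e⟩ := Set.ncard_eq_one.1 (show (orbit G (∞ : OnePoint k)).ncard = 1 by omega)
    have h1 : ∀ z ∈ orbit G (∞ : OnePoint k), z = x := fun z hz => by rwa [e] at hz
    exact fun g hg => smul_infty_eq_self_iff.1
      ((h1 _ (orb_smul hg (mem_orbit_self _))).trans (h1 _ (mem_orbit_self _)).symm)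
  right
  have hr : (R.erase y₀).card = 1 := by
    have a1 : ¬ 2 ≤ (R.erase y₀).card := fun h => by
      have : 2 * pord G ≤ (R.erase y₀).card * pord G := Nat.mul_le_mul_right _ h
      omega
    have a2 : (R.erase y₀).card ≠ 0 := fun h => by
      rw [card_eq_zero.1 h, sum_empty, card_empty] at h9
      have : (orbit G (∞ : OnePoint k)).ncard * Nat.card (Gam G) ≤ pord G := by
        rw [← h8, ← mul_assoc]
        exact Nat.le_mul_of_pos_right _ hd0
      have : 1 * 2 ≤ f * Nat.card (Gam G) := Nat.mul_le_mul hf0 hq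
      omega
    omega
  obtain ⟨y₁, e₁⟩ := card_eq_one.1 hr
  rw [e₁, sum_singleton, card_singleton] at h9
  have h10 := orb_mul G y₁
  rw [← h8, hn] at h10
  rcases arithp hq hd hf0 h10 (by rw [← hn]; omega) with ⟨h, h'⟩ | ⟨rfl, h⟩ | ⟨e1, rfl, e2, e3⟩
  · exact .inl ⟨dih_of_orb h, by simpa [h'] using hch⟩
  · exact .inr (.inr ⟨h.1, by omega, big_of h.2 hq (by omega)⟩)
  · have c3 : (3 : k) = 0 := by simpa [e1] using hch
    refine .inr (.inl ⟨c3, by rw [← h8, hn, e1, e2]; rfl, fun g hg' => ?_, e1, e2, by omega⟩)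
    by_cases hz : g ∈ Zc k
    · exact .inl ((Zc k).pow_mem hz 2)
    obtain ⟨x, hx⟩ := exists_fix g
    obtain ⟨y, hyR, hxy⟩ := h2 x g hg' hz hx
    by_cases e : y = y₀
    · rw [e, eo] at hxy
      obtain ⟨P, hP, rfl⟩ := mem_orb.1 hxy
      have t := tri_cj.1 hx
      have m : alf ⟨_, t⟩ ∈ Mul G :=
        (mem_Mul G).2 ⟨_, G.mul_mem (G.mul_mem (G.inv_mem hP) hg') hP, t, rfl⟩
      have s : ((P⁻¹ * g * P) 0 0 / (P⁻¹ * g * P) 1 1) ^ 2 = 1 := by
        have := congrArg (fun a : Mul G => (a.1 : k)) (pow_card_eq_one' (x := (⟨_, m⟩ : Mul G)))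
        rwa [e2] at this
      rw [← pow_cj P, ← pow_cj P g 3]
      have n := (tri_ne t).2
      rcases sq_eq_one_iff.1 s with s | s
      · refine .inr (.inl ((mem_Uni'.1 ⟨t, (div_eq_one_iff_eq n).1 s⟩).2.elim
          (fun h => (Zc k).pow_mem h 3) fun h => (par_pow h 3).2 (by simpa using c3)))
      · rw [div_eq_iff n] at s
        exact .inl (sq_Zc (by rw [s]; ring))
    · have : y = y₁ := mem_singleton.1 (e₁ ▸ mem_erase.2 ⟨e, hyR⟩)
      exact .inr (.inr (e3 ▸ pow_Sy (this ▸ hxy) hg' hx))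

/-- **Dickson's theorem** -/
theorem dickson : Red G ∨ Dih G ∨ Small G ∨ Big G := by
  by_cases hp : ∀ g ∈ G, ¬ g.IsParabolic
  · exact (tame G hp).imp_right (Or.imp_right .inl)
  push Not at hp
  obtain ⟨g, hg, hp⟩ := hp
  obtain ⟨x, hx⟩ := exists_fix g
  obtain ⟨P, rfl⟩ := trans1 x
  rcases wild (cj P G) (mem_cj'.2 hg) ((isParabolic_conj_iff' P g).2 hp) (tri_cj.1 hx) with
    h | h | h | ⟨h3, -, Q, -, h4, h⟩
  · exact .inl (red_iff.2 ⟨P, h⟩)
  · exact .inr (.inl h.1.of_cj)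
  · exact .inr (.inr (.inl (Small.of_cj ⟨.inr (.inr ⟨h.2.1, h.2.2.1⟩), .inr ⟨h.1, h.2.1⟩⟩)))
  · exact .inr (.inr (.inr (Big.of_cj ⟨_, Q, h4 ▸ h3, h⟩)))

end Vale.Agent.P022K.Dk
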