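import Vale.Agent.P022K.Dk.Cnt

/-!
P022K/Dk: the action of `GL₂(k)` on the projective line, fixed points, Borel subgroup.
-/

set_option linter.all false

namespace Vale.Agent.P022K.Dk

open MulAction Matrix OnePoint Matrix.GeneralLinearGroup
open scoped Classical Pointwise

/-- `GL₂` -/
abbrev G2 (k : Type) [Field k] : Type := GL (Fin 2) k

/-- the scalar matrices -/
abbrev Zc (k : Type) [Field k] : Subgroup (G2 k) := Subgroup.center (G2 k)

variable {k : Type} [Field k]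

theorem mul_ap (g h : G2 k) (i j : Fin 2) : (g * h) i j = g i 0 * h 0 j + g i 1 * h 1 j := by
  rw [Units.val_mul, Matrix.mul_apply, Fin.sum_univ_two]

theorem det_ne (g : G2 k) : g 0 0 * g 1 1 - g 0 1 * g 1 0 ≠ 0 := by
  have := g.det_ne_zero
  rwa [det_fin_two] at this

theorem ext4 {g h : G2 k} (h0 : g 0 0 = h 0 0) (h1 : g 0 1 = h 0 1) (h2 : g 1 0 = h 1 0)
    (h3 : g 1 1 = h 1 1) : g = h := by
  ext i j
  fin_cases i <;> fin_cases j <;> assumption

theorem inv_ap (g : G2 k) : g⁻¹ 0 0 = g 1 1 / (g 0 0 * g 1 1 - g 0 1 * g 1 0) ∧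
    g⁻¹ 0 1 = -g 0 1 / (g 0 0 * g 1 1 - g 0 1 * g 1 0) ∧
    g⁻¹ 1 0 = -g 1 0 / (g 0 0 * g 1 1 - g 0 1 * g 1 0) ∧
    g⁻¹ 1 1 = g 0 0 / (g 0 0 * g 1 1 - g 0 1 * g 1 0) := by
  have h : ∀ i j, (g⁻¹ * g) i j = (1 : Matrix (Fin 2) (Fin 2) k) i j := fun i j => by
    rw [inv_mul_cancel, Units.val_one]
  have h0 := h 0 0
  have h1 := h 0 1
  have h2 := h 1 0
  have h3 := h 1 1
  rw [mul_ap] at h0 h1 h2 h3
  simp only [one_apply_eq, ne_eq, zero_ne_one, one_ne_zero, not_false_eq_true, one_apply_ne]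
    at h0 h1 h2 h3
  have hd := det_ne g
  refine ⟨?_, ?_, ?_, ?_⟩ <;> rw [eq_div_iff hd]
  · linear_combination g 1 1 * h0 - g 1 0 * h1
  · linear_combination g 0 0 * h1 - g 0 1 * h0
  · linear_combination g 1 1 * h2 - g 1 0 * h3
  · linear_combination g 0 0 * h3 - g 0 1 * h2

/-- an invertible matrix from its entries -/
noncomputable def mk2 (a b c d : k) (h : a * d - b * c ≠ 0) : G2 k :=
  mkOfDetNeZero !![a, b; c, d] (by rwa [det_fin_two_of])

@[simp] theorem mk2_00 (a b c d : k) (h) : mk2 a b c d h 0 0 = a := rfl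
@[simp] theorem mk2_01 (a b c d : k) (h) : mk2 a b c d h 0 1 = b := rfl
@[simp] theorem mk2_10 (a b c d : k) (h) : mk2 a b c d h 1 0 = c := rfl
@[simp] theorem mk2_11 (a b c d : k) (h) : mk2 a b c d h 1 1 = d := rfl

theorem mem_Zc {g : G2 k} : g ∈ Zc k ↔ g 0 1 = 0 ∧ g 1 0 = 0 ∧ g 0 0 = g 1 1 := by
  rw [mem_center_iff_val_mem_range_scalar]
  constructor
  · rintro ⟨a, ha⟩
    rw [← ha]
    simp
  · rintro ⟨h1, h2, h3⟩
    refine ⟨g 0 0, ?_⟩
    ext i j
    fin_cases i <;> fin_cases j <;> simp [h1, h2, h3]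

theorem tri_ne {g : G2 k} (h : g 1 0 = 0) : g 0 0 ≠ 0 ∧ g 1 1 ≠ 0 := by
  have := det_ne g
  rw [h, mul_zero, sub_zero] at this
  exact mul_ne_zero_iff.1 this

theorem smul_coe {g : G2 k} (h : g 1 0 = 0) (z : k) :
    g • (z : OnePoint k) = (((g 0 0 * z + g 0 1) / g 1 1 : k) : OnePoint k) := by
  rw [smul_some_eq_ite, h, zero_mul, zero_add, if_neg (tri_ne h).2]

theorem Zc_smul {g : G2 k} (h : g ∈ Zc k) (x : OnePoint k) : g • x = x := by
  obtain ⟨h1, h2, h3⟩ := mem_Zc.1 h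
  cases x with
  | infty => exact smul_infty_eq_self_iff.2 h2
  | coe z => rw [smul_coe h2, h1, h3, add_zero, mul_div_cancel_left₀ _ (tri_ne h2).2]

theorem trans1 (x : OnePoint k) : ∃ P : G2 k, P • (∞ : OnePoint k) = x := by
  cases x with
  | infty => exact ⟨1, one_smul _ _⟩
  | coe z => exact ⟨mk2 z 1 1 0 (by simp), by simp [smul_infty_eq_ite]⟩

theorem trans2 {x y : OnePoint k} (h : x ≠ y) :
    ∃ P : G2 k, P • (∞ : OnePoint k) = x ∧ P • ((0 : k) : OnePoint k) = y := by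
  obtain ⟨P, rfl⟩ := trans1 x
  obtain ⟨y, rfl⟩ : ∃ y', y = P • y' := ⟨P⁻¹ • y, (smul_inv_smul _ _).symm⟩
  cases y with
  | infty => exact (h rfl).elim
  | coe z =>
    refine ⟨P * mk2 1 z 0 1 (by simp), ?_, ?_⟩
    · rw [mul_smul, smul_infty_eq_self_iff.2 rfl]
    · rw [mul_smul, smul_coe rfl]
      simp

theorem exists_fix [IsAlgClosed k] (g : G2 k) : ∃ x : OnePoint k, g • x = x := by
  by_cases h : g 1 0 = 0
  · exact ⟨∞, smul_infty_eq_self_iff.2 h⟩
  · have hd : g.fixpointPolynomial.degree ≠ 0 := by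
      have : g.fixpointPolynomial.degree = 2 := by
        unfold fixpointPolynomial
        compute_degree!
      rw [this]
      decide
    obtain ⟨z, hz⟩ := IsAlgClosed.exists_root _ hd
    exact ⟨z, fixpointPolynomial_aeval_eq_zero_iff.1 (by simpa using hz)⟩

theorem par_tri {g : G2 k} (h : g 1 0 = 0) : g.IsParabolic ↔ g 0 0 = g 1 1 ∧ g 0 1 ≠ 0 :=
  GeneralLinearGroup.isParabolic_iff_of_upperTriangular h

theorem fix_par {g : G2 k} (h : g 1 0 = 0) (hp : g.IsParabolic) :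
    fixedBy (OnePoint k) g = {∞} := by
  obtain ⟨h1, h2⟩ := (par_tri h).1 hp
  ext x
  cases x with
  | infty => simp [smul_infty_eq_self_iff, h]
  | coe z =>
    rw [mem_fixedBy, smul_coe h, coe_eq_coe, div_eq_iff (tri_ne h).2, h1]
    exact ⟨fun e => (h2 (by linear_combination e)).elim, fun e => (coe_ne_infty _ e).elim⟩

theorem fix_ss {g : G2 k} (h : g 1 0 = 0) (h1 : g 0 0 ≠ g 1 1) :
    fixedBy (OnePoint k) g = {∞, ((g 0 1 / (g 1 1 - g 0 0) : k) : OnePoint k)} := by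
  ext x
  cases x with
  | infty => simp [smul_infty_eq_self_iff, h]
  | coe z =>
    rw [mem_fixedBy, smul_coe h, coe_eq_coe, div_eq_iff (tri_ne h).2, Set.mem_insert_iff,
      Set.mem_singleton_iff, coe_eq_coe, eq_div_iff (sub_ne_zero.2 h1.symm)]
    exact ⟨fun e => .inr (by linear_combination -e),
      fun e => e.elim (fun e => (coe_ne_infty _ e).elim) fun e => by linear_combination -e⟩

theorem Zc_cj {g : G2 k} (P : G2 k) : P * g * P⁻¹ ∈ Zc k ↔ g ∈ Zc k :=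
  ⟨fun h => by simpa [mul_assoc] using (inferInstance : (Zc k).Normal).conj_mem _ h P⁻¹,
    fun h => (inferInstance : (Zc k).Normal).conj_mem _ h P⟩

theorem par_not_Zc {g : G2 k} (h : g.IsParabolic) : g ∉ Zc k :=
  fun h' => h.1 (mem_center_iff_val_mem_range_scalar.1 h')

/-- an element fixing a point is triangular after conjugation -/
theorem tri_cj {g P : G2 k} : g • P • (∞ : OnePoint k) = P • (∞ : OnePoint k) ↔
    (P⁻¹ * g * P) 1 0 = 0 := by
  rw [← smul_infty_eq_self_iff, mul_smul, mul_smul, inv_smul_eq_iff]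

theorem fix_cj (g P : G2 k) : fixedBy (OnePoint k) g = P • fixedBy (OnePoint k) (P⁻¹ * g * P) := by
  rw [smul_fixedBy]
  congr 1
  group

/-- a parabolic element has one fixed point -/
theorem par_fix {g : G2 k} (hp : g.IsParabolic) {x : OnePoint k} (hx : g • x = x) :
    fixedBy (OnePoint k) g = {x} := by
  obtain ⟨P, rfl⟩ := trans1 x
  rw [fix_cj g P, fix_par (tri_cj.1 hx) ((isParabolic_conj_iff' _ _).2 hp), Set.smul_set_singleton]

/-- the other non scalar elements have two -/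
theorem ss_fix {g : G2 k} (hz : g ∉ Zc k) (hp : ¬ g.IsParabolic) {x : OnePoint k}
    (hx : g • x = x) : ∃ y, x ≠ y ∧ fixedBy (OnePoint k) g = {x, y} := by
  obtain ⟨P, rfl⟩ := trans1 x
  have h := tri_cj.1 hx
  have h1 : (P⁻¹ * g * P) 0 0 ≠ (P⁻¹ * g * P) 1 1 := fun e => by
    by_cases h2 : (P⁻¹ * g * P) 0 1 = 0
    · exact hz ((Zc_cj P⁻¹).1 (by rw [inv_inv]; exact mem_Zc.2 ⟨h2, h, e⟩))
    · exact hp ((isParabolic_conj_iff' _ _).1 ((par_tri h).2 ⟨e, h2⟩))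
  rw [fix_cj g P, fix_ss h h1, Set.smul_set_insert, Set.smul_set_singleton]
  exact ⟨_, fun e => infty_ne_coe _ (smul_left_cancel _ e), rfl⟩

/-- the multiplicity of the fixed points -/
noncomputable def w0 (g : G2 k) : ℕ := if g ∈ Zc k then 0 else if g.IsParabolic then 2 else 1

theorem w0_cj (g h : G2 k) : w0 (h * g * h⁻¹) = w0 g := by
  simp only [w0, Zc_cj, GeneralLinearGroup.isParabolic_conj_iff]

theorem w0_ne {g : G2 k} : w0 g ≠ 0 ↔ g ∉ Zc k := by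
  unfold w0
  split_ifs <;> simp [*]

theorem w0_fix [IsAlgClosed k] {g : G2 k} (hz : g ∉ Zc k) :
    (fixedBy (OnePoint k) g).Finite ∧ w0 g * (fixedBy (OnePoint k) g).ncard = 2 := by
  obtain ⟨x, hx⟩ := exists_fix g
  by_cases hp : g.IsParabolic
  · rw [par_fix hp hx, w0, if_neg hz, if_pos hp]
    simp
  · obtain ⟨y, h, e⟩ := ss_fix hz hp hx
    rw [e, w0, if_neg hz, if_neg hp, Set.ncard_pair h]
    simp

theorem tri_pow {g : G2 k} (h : g 1 0 = 0) (n : ℕ) :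
    (g ^ n) 1 0 = 0 ∧ (g ^ n) 0 0 = g 0 0 ^ n ∧ (g ^ n) 1 1 = g 1 1 ^ n := by
  induction n with
  | zero => simp
  | succ n ih =>
    simp only [pow_succ, mul_ap, ih.1, ih.2.1, ih.2.2, h]
    simp

theorem uni_pow {g : G2 k} (h : g 1 0 = 0) (e : g 0 0 = g 1 1) (n : ℕ) :
    (g ^ n) 0 1 * g 1 1 = n * g 0 1 * g 1 1 ^ n := by
  induction n with
  | zero => simp
  | succ n ih =>
    rw [pow_succ, mul_ap, (tri_pow h n).2.1, add_mul, mul_assoc ((g ^ n) 0 1), mul_comm (g 1 1),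
      ← mul_assoc, ih, e]
    push_cast
    ring

/-- powers of a parabolic element -/
theorem par_pow [IsAlgClosed k] {g : G2 k} (hp : g.IsParabolic) (n : ℕ) :
    g ^ n ∈ Zc k ↔ (n : k) = 0 := by
  obtain ⟨x, hx⟩ := exists_fix g
  obtain ⟨P, rfl⟩ := trans1 x
  have h := tri_cj.1 hx
  obtain ⟨h1, h2⟩ := (par_tri h).1 ((isParabolic_conj_iff' P g).2 hp)
  have e : (P⁻¹ * g * P) ^ n = P⁻¹ * g ^ n * P⁻¹⁻¹ := by rw [← conj_pow, inv_inv]
  rw [← Zc_cj P⁻¹, ← e, mem_Zc]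
  have h3 := uni_pow h h1 n
  have h4 := tri_pow h n
  have h5 := (tri_ne h).2
  refine ⟨fun h6 => ?_, fun h6 => ⟨?_, h4.1, by rw [h4.2.1, h4.2.2, h1]⟩⟩
  · rw [h6.1, zero_mul] at h3
    exact ((mul_eq_zero.1 ((mul_eq_zero.1 h3.symm).resolve_right (pow_ne_zero _ h5))).resolve_right
      h2)
  · rw [h6, zero_mul, zero_mul] at h3
    exact (mul_eq_zero.1 h3).resolve_right h5

/-- an element with a central `p`-th power is scalar or parabolic -/
theorem par_of_pow [IsAlgClosed k] (p : ℕ) [Fact p.Prime] [CharP k p] {g : G2 k} (hz : g ∉ Zc k)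
    (n : ℕ) (hg : g ^ p ^ n ∈ Zc k) : g.IsParabolic := by
  obtain ⟨x, hx⟩ := exists_fix g
  obtain ⟨P, rfl⟩ := trans1 x
  have h := tri_cj.1 hx
  have e : (P⁻¹ * g * P) ^ p ^ n = P⁻¹ * g ^ p ^ n * P⁻¹⁻¹ := by rw [← conj_pow, inv_inv]
  rw [← Zc_cj P⁻¹, ← e, mem_Zc, (tri_pow h _).2.1, (tri_pow h _).2.2] at hg
  have h1 : (P⁻¹ * g * P) 0 0 = (P⁻¹ * g * P) 1 1 := by
    have := hg.2.2
    rw [← sub_eq_zero, ← sub_pow_char_pow] at this
    exact sub_eq_zero.1 (pow_eq_zero_iff (pow_ne_zero _ (Fact.out : p.Prime).ne_zero) |>.1 this)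
  refine (isParabolic_conj_iff' P g).1 ((par_tri h).2 ⟨h1, fun h2 => ?_⟩)
  exact hz ((Zc_cj P⁻¹).1 (by rw [inv_inv]; exact mem_Zc.2 ⟨h2, h, h1⟩))

/-- the upper triangular matrices -/
def Bor (k : Type) [Field k] : Subgroup (G2 k) where
  carrier := {g | g 1 0 = 0}
  mul_mem' {a b} ha hb := by
    change (a * b) 1 0 = 0
    rw [mul_ap, ha, hb, zero_mul, mul_zero, add_zero]
  one_mem' := by simp
  inv_mem' {a} ha := by
    change a⁻¹ 1 0 = 0
    rw [(inv_ap a).2.2.1, ha, neg_zero, zero_div]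

theorem mem_Bor {g : G2 k} : g ∈ Bor k ↔ g 1 0 = 0 := Iff.rfl

theorem Bor_eq : Bor k = stabilizer (G2 k) (∞ : OnePoint k) := by
  ext g
  rw [mem_Bor, mem_stabilizer_iff, smul_infty_eq_self_iff]

/-- the root character -/
noncomputable def alf : Bor k →* kˣ where
  toFun g := Units.mk0 (g.1 0 0 / g.1 1 1) (div_ne_zero (tri_ne g.2).1 (tri_ne g.2).2)
  map_one' := by ext; simp
  map_mul' a b := by
    ext
    have ha : a.1 1 0 = 0 := a.2
    have hb : b.1 1 0 = 0 := b.2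
    simp only [Units.val_mk0, Units.val_mul, Subgroup.coe_mul]
    rw [← Units.val_mul, mul_ap, mul_ap, ha, hb, div_mul_div_comm]
    simp

theorem alf_val (g : Bor k) : (alf g : k) = g.1 0 0 / g.1 1 1 := rfl

/-- scalars times unipotent upper triangular matrices -/
def Uni (k : Type) [Field k] : Subgroup (G2 k) where
  carrier := {g | g 1 0 = 0 ∧ g 0 0 = g 1 1}
  mul_mem' {a b} ha hb := ⟨(Bor k).mul_mem ha.1 hb.1, by
    rw [mul_ap, mul_ap, ha.1, hb.1, ha.2, hb.2]; ring⟩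
  one_mem' := by simp
  inv_mem' {a} ha := ⟨(Bor k).inv_mem ha.1, by rw [(inv_ap a).1, (inv_ap a).2.2.2, ha.2]⟩

theorem mem_Uni {g : G2 k} : g ∈ Uni k ↔ g 1 0 = 0 ∧ g 0 0 = g 1 1 := Iff.rfl

theorem mem_Uni' {g : G2 k} : g ∈ Uni k ↔ g 1 0 = 0 ∧ (g ∈ Zc k ∨ g.IsParabolic) := by
  refine ⟨fun h => ⟨h.1, ?_⟩, fun h => ⟨h.1, h.2.elim (fun h => (mem_Zc.1 h).2.2) fun h' =>
    ((par_tri h.1).1 h').1⟩⟩
  by_cases h2 : g 0 1 = 0
  · exact .inl (mem_Zc.2 ⟨h2, h.1, h.2⟩)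
  · exact .inr ((par_tri h.1).2 ⟨h.2, h2⟩)

/-- the translation part -/
noncomputable def bet : Uni k →* Multiplicative k where
  toFun g := Multiplicative.ofAdd (g.1 0 1 / g.1 1 1)
  map_one' := by simp
  map_mul' a b := by
    rw [← ofAdd_add, Subgroup.coe_mul, mul_ap, mul_ap, a.2.1, a.2.2,
      div_add_div _ _ (tri_ne a.2.1).2 (tri_ne b.2.1).2]
    congr 2 <;> ring

end Vale.Agent.P022K.Dk
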