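import Vale.Agent.P022K.Dk.Klein

/-!
P022K/Dk: recognition of `SL₂(F)`.
-/

set_option linter.all false

namespace Vale.Agent.P022K.Dk

open MulAction Matrix OnePoint Matrix.GeneralLinearGroup
open scoped Classical Pointwise

variable {k : Type} [Field k]

/-- the conjugate `P⁻¹ G P` -/
def cj (P : G2 k) (G : Subgroup (G2 k)) : Subgroup (G2 k) := G.comap (MulAut.conj P).toMonoidHom

theorem mem_cj {P m : G2 k} {G : Subgroup (G2 k)} : m ∈ cj P G ↔ P * m * P⁻¹ ∈ G := Iff.rfl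

theorem mem_cj' {P g : G2 k} {G : Subgroup (G2 k)} : P⁻¹ * g * P ∈ cj P G ↔ g ∈ G := by
  rw [mem_cj]
  congr! 1
  group

theorem cj_cj (P Q : G2 k) (G : Subgroup (G2 k)) : cj Q (cj P G) = cj (P * Q) G := by
  ext m
  simp only [mem_cj, _root_.mul_inv_rev, mul_assoc]

theorem cj_one (G : Subgroup (G2 k)) : cj 1 G = G := by
  ext m
  simp [mem_cj]

instance (P : G2 k) (G : Subgroup (G2 k)) [Finite G] : Finite (cj P G) :=
  Finite.of_injective (fun m : cj P G => (⟨P * m * P⁻¹, m.2⟩ : G)) fun a b h =>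
    Subtype.ext (by simpa using congrArg Subtype.val h)

theorem pord_cj (P : G2 k) (G : Subgroup (G2 k)) : pord (cj P G) = pord G := by
  have e : Zc k = (Zc k).comap (MulAut.conj P).toMonoidHom := Subgroup.ext fun g => (Zc_cj P).symm
  rw [pord, e, Subgroup.relIndex_comap, cj,
    Subgroup.map_comap_eq_self_of_surjective (MulAut.conj P).surjective]
  rfl

theorem orb_cj {P : G2 k} {G : Subgroup (G2 k)} {x y : OnePoint k} :
    x ∈ orbit (cj P G) y ↔ P • x ∈ orbit G (P • y) := by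
  rw [mem_orb, mem_orb]
  constructor
  · rintro ⟨m, hm, rfl⟩
    exact ⟨P * m * P⁻¹, hm, by rw [mul_smul, mul_smul, inv_smul_smul]⟩
  · rintro ⟨g, hg, e⟩
    exact ⟨_, mem_cj'.2 hg, by rw [mul_smul, mul_smul, e, inv_smul_smul]⟩

/-- upper unipotent -/
noncomputable def up (t : k) : G2 k := mk2 1 t 0 1 (by simp)

/-- lower unipotent -/
noncomputable def lo (t : k) : G2 k := mk2 1 0 t 1 (by simp)

@[simp] theorem up_00 (t : k) : up t 0 0 = 1 := rfl
@[simp] theorem up_01 (t : k) : up t 0 1 = t := rfl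
@[simp] theorem up_10 (t : k) : up t 1 0 = 0 := rfl
@[simp] theorem up_11 (t : k) : up t 1 1 = 1 := rfl
@[simp] theorem lo_00 (t : k) : lo t 0 0 = 1 := rfl
@[simp] theorem lo_01 (t : k) : lo t 0 1 = 0 := rfl
@[simp] theorem lo_10 (t : k) : lo t 1 0 = t := rfl
@[simp] theorem lo_11 (t : k) : lo t 1 1 = 1 := rfl

/-- `SL₂(F)` is generated by the two root groups -/
theorem sl2_gen (F : Subfield k) (G : Subgroup (G2 k)) (hu : ∀ t ∈ F, up t ∈ G)
    (hl : ∀ t ∈ F, lo t ∈ G) (m : G2 k) (hm : ∀ i j, m i j ∈ F)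
    (hd : m 0 0 * m 1 1 - m 0 1 * m 1 0 = 1) : m ∈ G := by
  have key : ∀ m : G2 k, (∀ i j, m i j ∈ F) → m 0 0 * m 1 1 - m 0 1 * m 1 0 = 1 → m 1 0 ≠ 0 →
      m ∈ G := fun m hm hd hc => by
    have e : m = up ((m 0 0 - 1) / m 1 0) * lo (m 1 0) * up ((m 1 1 - 1) / m 1 0) := by
      apply ext4 <;> simp only [mul_ap, up_00, up_01, up_10, up_11, lo_00, lo_01, lo_10, lo_11] <;>
        field_simp
      · ring
      · linear_combination -hd
      · ring
      · ring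
    rw [e]
    exact G.mul_mem (G.mul_mem (hu _ (F.div_mem (F.sub_mem (hm 0 0) F.one_mem) (hm 1 0)))
      (hl _ (hm 1 0))) (hu _ (F.div_mem (F.sub_mem (hm 1 1) F.one_mem) (hm 1 0)))
  by_cases hc : m 1 0 = 0
  · refine (G.mul_mem_cancel_left (hl 1 F.one_mem)).1 (key _ (fun i j => ?_) ?_ ?_)
    · rw [mul_ap]
      refine F.add_mem (F.mul_mem ?_ (hm _ _)) (F.mul_mem ?_ (hm _ _)) <;> fin_cases i <;>
        simp [F.one_mem, F.zero_mem]
    · simp only [mul_ap, lo_00, lo_01, lo_10, lo_11]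
      linear_combination hd
    · simpa [mul_ap, hc] using (tri_ne hc).1
  · exact key m hm hd hc

/-- `SL₂(F) ≤ G ≤ k^× GL₂(F)` -/
def Std (F : Subfield k) (G : Subgroup (G2 k)) : Prop :=
  (∀ m : G2 k, (∀ i j, m i j ∈ F) → m 0 0 * m 1 1 - m 0 1 * m 1 0 = 1 → m ∈ G) ∧
    ∀ g ∈ G, ∃ c : k, c ≠ 0 ∧ ∀ i j, c * g i j ∈ F

/-- a point of the projective line over `F` -/
def InF (F : Subfield k) (x : OnePoint k) : Prop := ∀ z : k, x = z → z ∈ F

theorem inF_vec {F : Subfield k} {u v : k} (h0 : v = 0 → u ≠ 0)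
    (h : InF F (if v = 0 then ∞ else ((u / v : k) : OnePoint k))) :
    ∃ c u' v' : k, c ≠ 0 ∧ u' ∈ F ∧ v' ∈ F ∧ u = c * u' ∧ v = c * v' := by
  by_cases hv : v = 0
  · exact ⟨u, 1, 0, h0 hv, F.one_mem, F.zero_mem, by simp, by simp [hv]⟩
  · exact ⟨v, u / v, 1, hv, h _ (if_neg hv), F.one_mem, by field_simp, by simp⟩

theorem ent_of {F : Subfield k} (m : G2 k) (h1 : InF F (m • (∞ : OnePoint k)))
    (h2 : InF F (m • ((0 : k) : OnePoint k))) (h3 : InF F (m • ((1 : k) : OnePoint k))) :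
    ∃ c : k, c ≠ 0 ∧ ∀ i j, c * m i j ∈ F := by
  have hd := det_ne m
  rw [smul_infty_eq_ite] at h1
  rw [smul_some_eq_ite] at h2 h3
  simp only [mul_zero, zero_add, mul_one] at h2 h3
  obtain ⟨c₁, a, c, n1, ha, hc, e1, e2⟩ := inF_vec (fun h h' => hd (by simp [h, h'])) h1
  obtain ⟨c₂, b, d, n2, hb, hd', e3, e4⟩ := inF_vec (fun h h' => hd (by simp [h, h'])) h2
  obtain ⟨c₃, e, f, n3, he, hf, e5, e6⟩ := inF_vec
    (fun h h' => hd (by linear_combination m 0 0 * h - m 1 0 * h')) h3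
  have hD : a * d - b * c ≠ 0 := fun h => hd (by rw [e1, e2, e3, e4]; linear_combination c₁ * c₂ * h)
  rw [e1, e3] at e5
  rw [e2, e4] at e6
  have r1 : c₃⁻¹ * c₁ = (e * d - b * f) / (a * d - b * c) := by
    rw [inv_mul_eq_div, div_eq_div_iff n3 hD]
    linear_combination d * e5 - b * e6
  have r2 : c₃⁻¹ * c₂ = (a * f - e * c) / (a * d - b * c) := by
    rw [inv_mul_eq_div, div_eq_div_iff n3 hD]
    linear_combination a * e6 - c * e5
  have hD' := F.sub_mem (F.mul_mem ha hd') (F.mul_mem hb hc)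
  have m1 : c₃⁻¹ * c₁ ∈ F := r1 ▸ F.div_mem (F.sub_mem (F.mul_mem he hd') (F.mul_mem hb hf)) hD'
  have m2 : c₃⁻¹ * c₂ ∈ F := r2 ▸ F.div_mem (F.sub_mem (F.mul_mem ha hf) (F.mul_mem he hc)) hD'
  refine ⟨c₃⁻¹, inv_ne_zero n3, fun i j => ?_⟩
  fin_cases i <;> fin_cases j
  · exact (show c₃⁻¹ * m 0 0 = _ by rw [e1, ← mul_assoc]) ▸ F.mul_mem m1 ha
  · exact (show c₃⁻¹ * m 0 1 = _ by rw [e3, ← mul_assoc]) ▸ F.mul_mem m2 hb
  · exact (show c₃⁻¹ * m 1 0 = _ by rw [e2, ← mul_assoc]) ▸ F.mul_mem m1 hc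
  · exact (show c₃⁻¹ * m 1 1 = _ by rw [e4, ← mul_assoc]) ▸ F.mul_mem m2 hd'

theorem std_of {F : Subfield k} {G : Subgroup (G2 k)}
    (ho : ∀ z : k, (z : OnePoint k) ∈ orbit G (∞ : OnePoint k) ↔ z ∈ F)
    (hu : ∀ t ∈ F, up t ∈ G) : Std F G := by
  have h2 : ∀ g ∈ G, ∃ c : k, c ≠ 0 ∧ ∀ i j, c * g i j ∈ F := fun g hg =>
    ent_of g (fun z e => (ho z).1 (e ▸ orb_smul hg (mem_orbit_self _)))
      (fun z e => (ho z).1 (e ▸ orb_smul hg ((ho 0).2 F.zero_mem)))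
      fun z e => (ho z).1 (e ▸ orb_smul hg ((ho 1).2 F.one_mem))
  refine ⟨sl2_gen F G hu fun t ht => ?_, h2⟩
  obtain ⟨m, hm, e⟩ := mem_orb.1 ((ho 0).2 F.zero_mem)
  obtain ⟨c, hc, h⟩ := h2 m hm
  rw [smul_infty_eq_ite] at e
  have hd := det_ne m
  split_ifs at e with h1
  · exact (infty_ne_coe _ e).elim
  have h0 : m 0 0 = 0 := (div_eq_zero_iff.1 (coe_eq_coe.1 e)).resolve_right h1
  have hb : m 0 1 ≠ 0 := fun h => hd (by simp [h, h0])
  have e2 : lo t * m = m * up (t * (c * m 0 1) / (c * m 1 0)) := by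
    apply ext4 <;> simp only [mul_ap, up_00, up_01, up_10, up_11, lo_00, lo_01, lo_10, lo_11, h0] <;>
      field_simp <;> ring
  rw [← G.mul_mem_cancel_right hm, e2]
  exact G.mul_mem hm (hu _ (F.div_mem (F.mul_mem ht (h 0 1)) (h 1 0)))

variable {G : Subgroup (G2 k)} [Finite G]

/-- the unipotent part of an element of a finite group lies in the group -/
theorem up_mem {γ : k} (hγ : γ ∈ Gam G) : up γ ∈ G := by
  obtain ⟨g, hg, hu, rfl⟩ := hγ
  have n1 := (tri_ne hu.1).2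
  have h1 : 0 < orderOf (⟨g, hg⟩ : G) := orderOf_pos _
  have h2 : g ^ orderOf (⟨g, hg⟩ : G) = 1 := congrArg Subtype.val (pow_orderOf_eq_one (⟨g, hg⟩ : G))
  have h3 : g 1 1 ^ orderOf (⟨g, hg⟩ : G) = 1 := by rw [← (tri_pow hu.1 _).2.2, h2]; simp
  have h4 : IsOfFinOrder (g 1 1) := isOfFinOrder_iff_pow_eq_one.2 ⟨_, h1, h3⟩
  haveI : NeZero (orderOf (g 1 1)) := ⟨h4.orderOf_pos.ne'⟩
  have h5 : ((orderOf (g 1 1) : ℕ) : k) ≠ 0 := (IsPrimitiveRoot.orderOf (g 1 1)).neZero'.out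
  by_cases hb : g 0 1 = 0
  · rw [hb, zero_div, show up (0 : k) = 1 from ext4 rfl (by simp) (by simp) rfl]
    exact G.one_mem
  have h6 : ((orderOf (⟨g, hg⟩ : G) : ℕ) : k) = 0 := by
    have := uni_pow hu.1 hu.2 (orderOf (⟨g, hg⟩ : G))
    rw [h2, h3] at this
    simpa [hb] using this
  have hp : (ringChar k).Prime := (CharP.char_is_prime_or_zero k _).resolve_right fun h => by
    rw [ringChar.spec, h, zero_dvd_iff] at h6
    omega
  have h7 : Nat.Coprime (orderOf (g 1 1)) (ringChar k) :=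
    ((Nat.Prime.coprime_iff_not_dvd hp).2 fun h => h5 ((ringChar.spec k _).2 h)).symm
  obtain ⟨j, -, hj⟩ := Nat.exists_mul_mod_eq_one_of_coprime h7 hp.one_lt
  have h8 : ((orderOf (g 1 1) * j : ℕ) : k) = 1 := by
    rw [CharP.cast_eq_mod k (ringChar k), hj, Nat.cast_one]
  have h9 : g 1 1 ^ (orderOf (g 1 1) * j) = 1 := by rw [pow_mul, pow_orderOf_eq_one, one_pow]
  have e : g ^ (orderOf (g 1 1) * j) = up (g 0 1 / g 1 1) := by
    have t := tri_pow hu.1 (orderOf (g 1 1) * j)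
    refine ext4 (by rw [t.2.1, hu.2, h9]; rfl) ?_ t.1 (by rw [t.2.2, h9]; rfl)
    rw [up_01, eq_div_iff n1, uni_pow hu.1 hu.2, h8, h9, one_mul, mul_one]
  exact e ▸ G.pow_mem hg _

omit [Finite G] in
theorem mem_Gam {γ : k} (h : up γ ∈ G) : γ ∈ Gam G := ⟨_, h, ⟨rfl, rfl⟩, by simp⟩

/-- the multipliers of a finite additive group -/
def Fld (Γ : AddSubgroup k) [Finite Γ] : Subfield k where
  carrier := {a | ∀ γ ∈ Γ, a * γ ∈ Γ}
  mul_mem' ha hb γ h := by rw [mul_assoc]; exact ha _ (hb _ h)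
  one_mem' γ h := by rwa [one_mul]
  add_mem' ha hb γ h := by rw [add_mul]; exact Γ.add_mem (ha _ h) (hb _ h)
  zero_mem' γ h := by rw [zero_mul]; exact Γ.zero_mem
  neg_mem' ha γ h := by rw [neg_mul]; exact Γ.neg_mem (ha _ h)
  inv_mem' a ha γ h := by
    by_cases h0 : a = 0
    · rw [h0, _root_.inv_zero, zero_mul]
      exact Γ.zero_mem
    obtain ⟨δ, e⟩ := Finite.injective_iff_surjective.1
      (show Function.Injective fun δ : Γ => (⟨a * δ, ha _ δ.2⟩ : Γ) from fun x y e =>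
        Subtype.ext (mul_left_cancel₀ h0 (congrArg Subtype.val e))) ⟨γ, h⟩
    rw [← show a * δ = γ from congrArg Subtype.val e, inv_mul_cancel_left₀ h0]
    exact δ.2

/-- many multipliers: the group of translations is a line over a field -/
theorem fld_of (h : Nat.card (Gam G) ≤ 2 * Nat.card (Mul G) + 1) {s : k} (hs : s ∈ Gam G)
    (h0 : s ≠ 0) (z : k) : s * z ∈ Gam G ↔ z ∈ Fld (Gam G) := by
  refine ⟨fun hz => ?_, fun hz => mul_comm z s ▸ hz s hs⟩
  let D : AddSubgroup (Gam G) :=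
    { carrier := {γ | γ.1 / s ∈ Fld (Gam G)}
      add_mem' := fun {a b} ha hb => by
        change (a.1 + b.1) / s ∈ Fld (Gam G)
        rw [add_div]
        exact add_mem ha hb
      zero_mem' := by
        change (0 : k) / s ∈ Fld (Gam G)
        rw [zero_div]
        exact zero_mem _
      neg_mem' := fun {a} ha => by
        change (-a.1) / s ∈ Fld (Gam G)
        rw [neg_div]
        exact neg_mem ha }
  have mm : ∀ a : Mul G, ((a.1 : k) * s) / s ∈ Fld (Gam G) := fun a => by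
    rw [mul_div_cancel_right₀ _ h0]
    exact fun γ hγ => Mul_Gam G a.2 hγ
  have c1 : Nat.card (Option (Mul G)) ≤ Nat.card D := by
    refine Nat.card_le_card_of_injective
      (fun o => o.elim 0 fun a => ⟨⟨a.1 * s, Mul_Gam G a.2 hs⟩, mm a⟩) ?_
    rintro (_ | a) (_ | b) e
    · rfl
    · exact (mul_ne_zero b.1.ne_zero h0 (congrArg (fun x : D => x.1.1) e).symm).elim
    · exact (mul_ne_zero a.1.ne_zero h0 (congrArg (fun x : D => x.1.1) e)).elim
    · exact congrArg Option.some (Subtype.ext (Units.ext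
        (mul_right_cancel₀ h0 (congrArg (fun x : D => x.1.1) e))))
  rw [Finite.card_option] at c1
  have c2 := D.card_mul_index
  have c3 : D.index = 1 := by
    have := D.index_ne_zero_of_finite
    by_contra h1
    have : 2 ≤ D.index := by omega
    nlinarith
  have c4 : (⟨s * z, hz⟩ : Gam G) ∈ D := AddSubgroup.index_eq_one.1 c3 ▸ AddSubgroup.mem_top _
  have c5 : s * z / s ∈ Fld (Gam G) := c4
  rwa [mul_div_cancel_left₀ _ h0] at c5

/-- the doubly transitive case -/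
theorem big_of (h : Nat.card (Gam G) ≤ 2 * Nat.card (Mul G) + 1) (h1 : 2 ≤ Nat.card (Gam G))
    (h2 : (Fin0 G).ncard = Nat.card (Gam G)) :
    ∃ P : G2 k, P 1 0 = 0 ∧ Nat.card (Fld (Gam G)) = Nat.card (Gam G) ∧
      Std (Fld (Gam G)) (cj P G) := by
  obtain ⟨x₀, hx⟩ := Set.nonempty_of_ncard_ne_zero (s := Fin0 G) (by omega)
  haveI : Nontrivial (Gam G) := Finite.one_lt_card_iff_nontrivial.1 h1
  obtain ⟨⟨s, hs⟩, h0⟩ := exists_ne (0 : Gam G)
  have h0 : s ≠ 0 := fun e => h0 (Subtype.ext e)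
  have e : (fun γ => γ + x₀) '' (Gam G : Set k) = Fin0 G := by
    refine Set.eq_of_subset_of_ncard_le ?_ ?_ (Fin0_fin G)
    · rintro _ ⟨γ, hγ, rfl⟩
      exact Fin0_add G hγ hx
    · rw [Set.ncard_image_of_injective _ (add_left_injective x₀), h2]
      exact le_rfl
  refine ⟨mk2 s x₀ 0 1 (by simpa using h0), rfl, ?_, std_of (fun z => ?_) fun t ht => ?_⟩
  · refine Nat.card_eq_of_bijective (fun a : Fld (Gam G) => (⟨a * s, a.2 s hs⟩ : Gam G))
      ⟨fun a b e => Subtype.ext (mul_right_cancel₀ h0 (congrArg Subtype.val e)), fun γ => ?_⟩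
    exact ⟨⟨γ / s, (fld_of h hs h0 _).1 (by rw [mul_div_cancel₀ _ h0]; exact γ.2)⟩,
      Subtype.ext (div_mul_cancel₀ _ h0)⟩
  · rw [orb_cj, smul_infty_eq_self_iff.2 rfl, smul_coe rfl, ← fld_of h hs h0]
    change _ ∈ Fin0 G ↔ _
    rw [← e]
    simp
  · have e2 : mk2 s x₀ 0 1 (by simpa using h0) * up t = up (s * t) * mk2 s x₀ 0 1 (by simpa using h0) := by
      apply ext4 <;> simp [mul_ap, add_comm]
    rw [mem_cj, e2, mul_inv_cancel_right]
    exact up_mem ((fld_of h hs h0 t).2 ht)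

end Vale.Agent.P022K.Dk
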